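import Vale.Agent.P036.MathlibUsed
import Vale.Agent.P036.Defs

set_option linter.all false

section

section

open MeasureTheory Set

namespace Vale.Agent.P036

noncomputable section

/-- indicator of `|u| ≤ h` -/
def chi (h u : ℝ) : ℝ := if |u| ≤ h then 1 else 0

/-- positive part -/
def rp (x : ℝ) : ℝ := max x 0

/-- length of the overlap of two intervals of half-lengths `h`, `k` whose centres differ by `τ` -/
def ov (h k τ : ℝ) : ℝ := rp (τ + h + k) - rp (τ + k - h) - rp (τ + h - k) + rp (τ - h - k)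

/-- primitive of `ov` -/
def dv (h k x : ℝ) : ℝ :=
  ((rp (x + h + k)) ^ 2 - (rp (x + k - h)) ^ 2 - (rp (x + h - k)) ^ 2 + (rp (x - h - k)) ^ 2) / 2

lemma chi_eq_indicator (h a t : ℝ) :
    chi h (a - t) = (Icc (a - h) (a + h)).indicator (fun _ => (1 : ℝ)) t := by
  unfold chi
  by_cases hh : |a - t| ≤ h
  · rw [if_pos hh, indicator_of_mem]
    rw [abs_le] at hh
    constructor <;> linarith [hh.1, hh.2]
  · rw [if_neg hh, indicator_of_notMem]
    intro hmem
    apply hh
    rw [abs_le]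
    constructor <;> linarith [hmem.1, hmem.2]

lemma chi_mul_eq (h k a b t : ℝ) :
    chi h (a - t) * chi k (b - t) =
      (Icc (max (a - h) (b - k)) (min (a + h) (b + k))).indicator (fun _ => (1 : ℝ)) t := by
  rw [chi_eq_indicator, chi_eq_indicator, ← Icc_inter_Icc]
  by_cases h1 : t ∈ Icc (a - h) (a + h) <;> by_cases h2 : t ∈ Icc (b - k) (b + k)
  · simp only [h1, indicator_of_mem, h2, mul_one, mem_inter_iff, and_self]
  · simp only [h1, indicator_of_mem, h2, not_false_eq_true, indicator_of_notMem, mul_zero, mem_inter_iff, and_false]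
  · simp only [h1, not_false_eq_true, indicator_of_notMem, h2, indicator_of_mem, mul_one, mem_inter_iff, and_true]
  · simp only [h1, not_false_eq_true, indicator_of_notMem, h2, mul_zero, mem_inter_iff, and_self]

lemma integrable_chi_mul (h k a b : ℝ) :
    Integrable (fun t => chi h (a - t) * chi k (b - t)) := by
  have : (fun t => chi h (a - t) * chi k (b - t)) =
      (Icc (max (a - h) (b - k)) (min (a + h) (b + k))).indicator (fun _ => (1 : ℝ)) := by
    funext t
    exact chi_mul_eq h k a b t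
  rw [this]
  rw [integrable_indicator_iff measurableSet_Icc]
  exact integrableOn_const (by simp only [Real.volume_Icc, ne_eq, ENNReal.ofReal_ne_top, not_false_eq_true]) (by simp)

lemma ov_formula (h k a b : ℝ) (hh : 0 ≤ h) (hk : 0 ≤ k) :
    max (min (a + h) (b + k) - max (a - h) (b - k)) 0 = ov h k (a - b) := by
  unfold ov rp
  simp only [max_def, min_def]
  split_ifs <;> linarith

lemma integral_chi_mul (h k a b : ℝ) (hh : 0 ≤ h) (hk : 0 ≤ k) :
    ∫ t, chi h (a - t) * chi k (b - t) = ov h k (a - b) := by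
  have : (fun t => chi h (a - t) * chi k (b - t)) =
      (Icc (max (a - h) (b - k)) (min (a + h) (b + k))).indicator (fun _ => (1 : ℝ)) := by
    funext t
    exact chi_mul_eq h k a b t
  rw [this, integral_indicator measurableSet_Icc]
  simp only [integral_const, smul_eq_mul, mul_one]
  rw [measureReal_restrict_apply MeasurableSet.univ, univ_inter, Real.volume_real_Icc]
  exact ov_formula h k a b hh hk

lemma continuous_rp : Continuous rp := by
  unfold rp
  fun_prop

lemma continuous_ov (h k : ℝ) : Continuous (ov h k) := by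
  unfold ov
  have := continuous_rp
  fun_prop

lemma hasDerivAt_rp_sq (x : ℝ) : HasDerivAt (fun y => (rp y) ^ 2 / 2) (rp x) x := by
  rcases lt_trichotomy x 0 with hx | hx | hx
  · have h1 : rp x = 0 := max_eq_right hx.le
    rw [h1]
    refine (hasDerivAt_const x (0 : ℝ)).congr_of_eventuallyEq ?_
    filter_upwards [Iio_mem_nhds hx] with y hy
    have : rp y = 0 := max_eq_right (le_of_lt hy)
    rw [this]; simp
  · subst hx
    have h1 : rp 0 = 0 := by simp [rp]
    rw [h1]
    rw [hasDerivAt_iff_isLittleO]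
    simp only [h1, smul_zero, sub_zero]
    have h2 : (fun y : ℝ => rp y ^ 2 / 2 - 0 ^ 2 / 2) =O[nhds 0] fun y : ℝ => y ^ 2 := by
      apply Asymptotics.IsBigO.of_bound 1
      filter_upwards with y
      have : 0 ≤ rp y ∧ rp y ≤ |y| := by
        unfold rp
        constructor
        · exact le_max_right _ _
        · exact max_le (le_abs_self y) (abs_nonneg y)
      rw [Real.norm_eq_abs, Real.norm_eq_abs, show rp y ^ 2 / 2 - 0 ^ 2 / 2 = rp y ^ 2 / 2 by ring,
        abs_of_nonneg (by positivity), abs_of_nonneg (by positivity)]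
      have h3 : rp y ^ 2 ≤ |y| ^ 2 := by
        apply pow_le_pow_left₀ this.1 this.2
      rw [sq_abs] at h3
      nlinarith only [h3]
    refine h2.trans_isLittleO ?_
    have := Asymptotics.isLittleO_pow_id (𝕜 := ℝ) (n := 2) (by norm_num)
    simpa using this
  · have h1 : rp x = x := max_eq_left hx.le
    rw [h1]
    have : HasDerivAt (fun y : ℝ => y ^ 2 / 2) x x := by
      have := (hasDerivAt_pow 2 x).div_const 2
      simpa only [Nat.cast_ofNat, Nat.add_one_sub_one, pow_one, ne_eq, OfNat.ofNat_ne_zero, not_false_eq_true,     mul_div_cancel_left₀] using this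
    refine this.congr_of_eventuallyEq ?_
    filter_upwards [Ioi_mem_nhds hx] with y hy
    have : rp y = y := max_eq_left (le_of_lt hy)
    rw [this]

lemma hasDerivAt_dv (h k x : ℝ) : HasDerivAt (dv h k) (ov h k x) x := by
  have e1 : HasDerivAt (fun y => (rp (y + (h + k))) ^ 2 / 2) (rp (x + (h + k))) x :=
    (hasDerivAt_rp_sq (x + (h + k))).comp_add_const x (h + k)
  have e2 : HasDerivAt (fun y => (rp (y + (k - h))) ^ 2 / 2) (rp (x + (k - h))) x :=
    (hasDerivAt_rp_sq (x + (k - h))).comp_add_const x (k - h)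
  have e3 : HasDerivAt (fun y => (rp (y + (h - k))) ^ 2 / 2) (rp (x + (h - k))) x :=
    (hasDerivAt_rp_sq (x + (h - k))).comp_add_const x (h - k)
  have e4 : HasDerivAt (fun y => (rp (y + (- h - k))) ^ 2 / 2) (rp (x + (- h - k))) x :=
    (hasDerivAt_rp_sq (x + (- h - k))).comp_add_const x (- h - k)
  have e := ((e1.sub e2).sub e3).add e4
  refine (e.congr_of_eventuallyEq ?_).congr_deriv ?_
  · filter_upwards with y
    unfold dv
    simp only [Pi.add_apply, Pi.sub_apply]
    rw [show y + h + k = y + (h + k) by ring, show y + k - h = y + (k - h) by ring,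
      show y + h - k = y + (h - k) by ring, show y - h - k = y + (-h - k) by ring]
    ring
  · unfold ov
    rw [show x + h + k = x + (h + k) by ring, show x + k - h = x + (k - h) by ring,
      show x + h - k = x + (h - k) by ring, show x - h - k = x + (-h - k) by ring]

lemma dv_left (h k x : ℝ) (hh : 0 ≤ h) (hk : 0 ≤ k) (hx : x ≤ -(h + k)) : dv h k x = 0 := by
  unfold dv rp
  rw [max_eq_right (by linarith), max_eq_right (by linarith), max_eq_right (by linarith),
    max_eq_right (by linarith)]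
  ring

lemma dv_right (h k x : ℝ) (hh : 0 ≤ h) (hk : 0 ≤ k) (hx : h + k ≤ x) : dv h k x = 4 * h * k := by
  unfold dv rp
  rw [max_eq_left (by linarith), max_eq_left (by linarith), max_eq_left (by linarith),
    max_eq_left (by linarith)]
  ring

lemma ov_nonneg (h k x : ℝ) (hh : 0 ≤ h) (hk : 0 ≤ k) : 0 ≤ ov h k x := by
  have := ov_formula h k x 0 hh hk
  rw [sub_zero] at this
  rw [← this]
  exact le_max_right _ _

lemma ov_le (h k x : ℝ) (hh : 0 ≤ h) (hk : 0 ≤ k) : ov h k x ≤ 2 * h := by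
  have := ov_formula h k x 0 hh hk
  rw [sub_zero] at this
  rw [← this]
  apply max_le _ (by linarith)
  have h1 := min_le_left (x + h) (0 + k)
  have h2 := le_max_left (x - h) (0 - k)
  linarith

lemma ov_eq_zero (h k x : ℝ) (hh : 0 ≤ h) (hk : 0 ≤ k) (hx : h + k ≤ |x|) : ov h k x = 0 := by
  have := ov_formula h k x 0 hh hk
  rw [sub_zero] at this
  rw [← this]
  apply max_eq_right
  have h1 := min_le_left (x + h) (0 + k)
  have h1' := min_le_right (x + h) (0 + k)
  have h2 := le_max_left (x - h) (0 - k)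
  have h2' := le_max_right (x - h) (0 - k)
  rcases le_abs'.mp hx with h3 | h3 <;> linarith

lemma ov_comm (h k x : ℝ) : ov h k x = ov k h x := by
  unfold ov
  rw [show x + k + h = x + h + k by ring, show x - k - h = x - h - k by ring]
  ring

lemma dv_mono (h k : ℝ) (hh : 0 ≤ h) (hk : 0 ≤ k) : Monotone (dv h k) := by
  apply monotone_of_deriv_nonneg
  · intro x
    exact (hasDerivAt_dv h k x).differentiableAt
  · intro x
    rw [(hasDerivAt_dv h k x).deriv]
    exact ov_nonneg h k x hh hk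

lemma dv_nonneg (h k x : ℝ) (hh : 0 ≤ h) (hk : 0 ≤ k) : 0 ≤ dv h k x := by
  have h1 := dv_mono h k hh hk (min_le_left x (-(h + k)))
  rw [dv_left h k _ hh hk (min_le_right _ _)] at h1
  exact h1

lemma dv_le (h k x : ℝ) (hh : 0 ≤ h) (hk : 0 ≤ k) : dv h k x ≤ 4 * h * k := by
  have h1 := dv_mono h k hh hk (le_max_left x (h + k))
  rw [dv_right h k _ hh hk (le_max_right _ _)] at h1
  exact h1

end

end Vale.Agent.P036
end
end

section

section

open MeasureTheory Set

namespace Vale.Agent.P036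

noncomputable section

def phi (w W u : ℝ) : ℝ := chi w u - (w / W) * chi W u

def Phi (w W τ : ℝ) : ℝ := ov w w τ - 2 * (w / W) * ov w W τ + (w / W) ^ 2 * ov W W τ

def dPhi (w W x : ℝ) : ℝ := dv w w x - 2 * (w / W) * dv w W x + (w / W) ^ 2 * dv W W x

def Jint (w W u v : ℝ) : ℝ := ∫ s in (-1 : ℝ)..2, Phi w W (v - u * s)

lemma integrable_phi_mul (w W a b : ℝ) :
    Integrable (fun t => phi w W (a - t) * phi w W (b - t)) := by
  have e : (fun t => phi w W (a - t) * phi w W (b - t)) = fun t =>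
      (chi w (a - t) * chi w (b - t)) - (w / W) * (chi w (a - t) * chi W (b - t))
      - (w / W) * (chi W (a - t) * chi w (b - t)) +
      (w / W) ^ 2 * (chi W (a - t) * chi W (b - t)) := by
    funext t
    unfold phi
    ring
  rw [e]
  exact (((integrable_chi_mul w w a b).sub ((integrable_chi_mul w W a b).const_mul _)).sub
    ((integrable_chi_mul W w a b).const_mul _)).add ((integrable_chi_mul W W a b).const_mul _)

lemma integral_phi_mul (w W a b : ℝ) (hw : 0 ≤ w) (hW : 0 ≤ W) :
    ∫ t, phi w W (a - t) * phi w W (b - t) = Phi w W (a - b) := by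
  have e : (fun t => phi w W (a - t) * phi w W (b - t)) = fun t =>
      (chi w (a - t) * chi w (b - t)) - (w / W) * (chi w (a - t) * chi W (b - t))
      - (w / W) * (chi W (a - t) * chi w (b - t)) +
      (w / W) ^ 2 * (chi W (a - t) * chi W (b - t)) := by
    funext t
    unfold phi
    ring
  have i1 := integrable_chi_mul w w a b
  have i2 := (integrable_chi_mul w W a b).const_mul (w / W)
  have i3 := (integrable_chi_mul W w a b).const_mul (w / W)
  have i4 := (integrable_chi_mul W W a b).const_mul ((w / W) ^ 2)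
  have i12 : Integrable (fun t => chi w (a - t) * chi w (b - t)
      - (w / W) * (chi w (a - t) * chi W (b - t))) := i1.sub i2
  have i123 : Integrable (fun t => chi w (a - t) * chi w (b - t)
      - (w / W) * (chi w (a - t) * chi W (b - t))
      - (w / W) * (chi W (a - t) * chi w (b - t))) := i12.sub i3
  rw [e, integral_add i123 i4, integral_sub i12 i3, integral_sub i1 i2,
    integral_const_mul, integral_const_mul, integral_const_mul, integral_chi_mul w w a b hw hw,
    integral_chi_mul w W a b hw hW, integral_chi_mul W w a b hW hw,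
    integral_chi_mul W W a b hW hW, ov_comm W w]
  unfold Phi
  ring

lemma continuous_Phi (w W : ℝ) : Continuous (Phi w W) := by
  unfold Phi
  have h1 := continuous_ov w w
  have h2 := continuous_ov w W
  have h3 := continuous_ov W W
  fun_prop

lemma Phi_eq_zero (w W τ : ℝ) (hw : 0 ≤ w) (hwW : w ≤ W) (hτ : 2 * W ≤ |τ|) :
    Phi w W τ = 0 := by
  unfold Phi
  rw [ov_eq_zero w w τ hw hw (by linarith), ov_eq_zero w W τ hw (by linarith) (by linarith),
    ov_eq_zero W W τ (by linarith) (by linarith) (by linarith)]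
  ring

lemma abs_Phi_le (w W τ : ℝ) (hw : 0 ≤ w) (hW : 0 < W) (hwW : w ≤ W) :
    |Phi w W τ| ≤ 4 * w := by
  have h1 := ov_nonneg w w τ hw hw
  have h2 := ov_nonneg w W τ hw hW.le
  have h3 := ov_nonneg W W τ hW.le hW.le
  have h1' := ov_le w w τ hw hw
  have h2' := ov_le w W τ hw hW.le
  have h3' := ov_le W W τ hW.le hW.le
  have hr0 : 0 ≤ w / W := div_nonneg hw hW.le
  have hr1 : w / W ≤ 1 := (div_le_one hW).mpr hwW
  have hr : w / W * W = w := div_mul_cancel₀ w hW.ne'
  set r := w / W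
  have k1 : 0 ≤ 2 * r * ov w W τ := by (clear * - hw hW h2; positivity)
  have k2 : 2 * r * ov w W τ ≤ 4 * w := by
    calc 2 * r * ov w W τ ≤ 2 * r * (2 * w) := by (clear * - h2' hw hW; gcongr)
      _ ≤ 2 * 1 * (2 * w) := by (clear * - hr1 hw; gcongr)
      _ = 4 * w := by ring
  have k3 : 0 ≤ r ^ 2 * ov W W τ := by (clear * - h3; positivity)
  have k4 : r ^ 2 * ov W W τ ≤ 2 * w := by
    calc r ^ 2 * ov W W τ ≤ r ^ 2 * (2 * W) := by (clear * - h3'; gcongr)
      _ = 2 * r * (r * W) := by ring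
      _ = 2 * r * w := by rw [hr]
      _ ≤ 2 * 1 * w := by (clear * - hr1 hw; gcongr)
      _ = 2 * w := by ring
  unfold Phi
  rw [abs_le]
  constructor <;> linarith only [h1', k1, k4, h1, k2, k3]

lemma dPhi_eq_zero (w W x : ℝ) (hw : 0 ≤ w) (hW : 0 < W) (hwW : w ≤ W) (hx : 2 * W ≤ |x|) :
    dPhi w W x = 0 := by
  unfold dPhi
  have hr : w / W * W = w := div_mul_cancel₀ w hW.ne'
  rcases le_abs'.mp hx with h | h
  · rw [dv_left w w x hw hw (by linarith only [hwW, h]), dv_left w W x hw hW.le (by linarith),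
      dv_left W W x hW.le hW.le (by linarith)]
    ring
  · rw [dv_right w w x hw hw (by linarith only [hwW, h]), dv_right w W x hw hW.le (by linarith),
      dv_right W W x hW.le hW.le (by linarith)]
    have e1 : 2 * (w / W) * (4 * w * W) = 8 * w * (w / W * W) := by ring
    have e2 : (w / W) ^ 2 * (4 * W * W) = 4 * (w / W * W) ^ 2 := by ring
    rw [e1, e2, hr]
    ring

lemma abs_dPhi_le (w W x : ℝ) (hw : 0 ≤ w) (hW : 0 < W) : |dPhi w W x| ≤ 8 * w ^ 2 := by
  have h1 := dv_nonneg w w x hw hw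
  have h2 := dv_nonneg w W x hw hW.le
  have h3 := dv_nonneg W W x hW.le hW.le
  have h1' := dv_le w w x hw hw
  have h2' := dv_le w W x hw hW.le
  have h3' := dv_le W W x hW.le hW.le
  have hr0 : 0 ≤ w / W := div_nonneg hw hW.le
  have hr : w / W * W = w := div_mul_cancel₀ w hW.ne'
  have k1 : 0 ≤ 2 * (w / W) * dv w W x := by (clear * - hw hW h2; positivity)
  have k2 : 2 * (w / W) * dv w W x ≤ 8 * w ^ 2 := by
    calc 2 * (w / W) * dv w W x ≤ 2 * (w / W) * (4 * w * W) := by (clear * - h2' hw hW; gcongr)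
      _ = 8 * w * (w / W * W) := by ring
      _ = 8 * w ^ 2 := by rw [hr]; ring
  have k3 : 0 ≤ (w / W) ^ 2 * dv W W x := by (clear * - h3; positivity)
  have k4 : (w / W) ^ 2 * dv W W x ≤ 4 * w ^ 2 := by
    calc (w / W) ^ 2 * dv W W x ≤ (w / W) ^ 2 * (4 * W * W) := by (clear * - h3'; gcongr)
      _ = 4 * (w / W * W) ^ 2 := by ring
      _ = 4 * w ^ 2 := by rw [hr]
  unfold dPhi
  rw [abs_le]
  constructor <;> nlinarith

lemma integral_Phi (w W A B : ℝ) : ∫ x in A..B, Phi w W x = dPhi w W B - dPhi w W A := by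
  apply intervalIntegral.integral_eq_sub_of_hasDerivAt
  · intro x _
    unfold Phi dPhi
    exact ((hasDerivAt_dv w w x).sub ((hasDerivAt_dv w W x).const_mul _)).add
      ((hasDerivAt_dv W W x).const_mul _)
  · exact (continuous_Phi w W).intervalIntegrable _ _

lemma Jint_eq (w W u v : ℝ) (hu : u ≠ 0) :
    Jint w W u v = u⁻¹ * (dPhi w W (v + u) - dPhi w W (v - 2 * u)) := by
  unfold Jint
  rw [intervalIntegral.integral_comp_sub_mul (fun x => Phi w W x) hu v, integral_Phi, smul_eq_mul]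
  congr 3
  · ring
  · ring

lemma abs_Jint_le_far (w W u v : ℝ) (hu : u ≠ 0) (hw : 0 ≤ w) (hW : 0 < W) :
    |Jint w W u v| ≤ 16 * w ^ 2 / |u| := by
  rw [Jint_eq w W u v hu, abs_mul, abs_inv]
  have h1 := abs_dPhi_le w W (v + u) hw hW
  have h2 := abs_dPhi_le w W (v - 2 * u) hw hW
  have h3 : |dPhi w W (v + u) - dPhi w W (v - 2 * u)| ≤ 16 * w ^ 2 := by
    calc |dPhi w W (v + u) - dPhi w W (v - 2 * u)|
        ≤ |dPhi w W (v + u)| + |dPhi w W (v - 2 * u)| := abs_sub _ _
      _ ≤ 16 * w ^ 2 := by linarith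
  have hu' : 0 < |u| := abs_pos.mpr hu
  rw [div_eq_inv_mul]
  gcongr

lemma Jint_eq_zero_far (w W u v : ℝ) (hu : u ≠ 0) (hw : 0 ≤ w) (hW : 0 < W) (hwW : w ≤ W)
    (h1 : 2 * W ≤ |v + u|) (h2 : 2 * W ≤ |v - 2 * u|) : Jint w W u v = 0 := by
  rw [Jint_eq w W u v hu, dPhi_eq_zero w W _ hw hW hwW h1, dPhi_eq_zero w W _ hw hW hwW h2]
  ring

lemma abs_Jint_le (w W u v : ℝ) (hw : 0 ≤ w) (hW : 0 < W) (hwW : w ≤ W) :
    |Jint w W u v| ≤ 12 * w := by
  unfold Jint
  have := intervalIntegral.norm_integral_le_of_norm_le_const (a := (-1 : ℝ)) (b := 2)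
    (C := 4 * w) (f := fun s => Phi w W (v - u * s)) (fun s _ => abs_Phi_le w W _ hw hW hwW)
  rw [Real.norm_eq_abs] at this
  rw [show |(2 : ℝ) - (-1)| = 3 by norm_num] at this
  linarith

lemma Jint_eq_zero_near (w W u v : ℝ) (hw : 0 ≤ w) (hwW : w ≤ W)
    (h1 : 2 * W + 2 * |u| ≤ |v|) : Jint w W u v = 0 := by
  unfold Jint
  apply intervalIntegral.integral_zero_ae
  filter_upwards with s hs
  apply Phi_eq_zero w W _ hw hwW
  rw [uIoc_of_le (by norm_num)] at hs
  have hs1 : |s| ≤ 2 := by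
    rw [abs_le]; constructor <;> linarith [hs.1, hs.2]
  have h2 : |u * s| ≤ 2 * |u| := by
    rw [abs_mul]
    nlinarith only [hs1, abs_nonneg u]
  have h3 : |v| - |u * s| ≤ |v - u * s| := abs_sub_abs_le_abs_sub v (u * s)
  linarith

end

end Vale.Agent.P036
end
end

section

section

open MeasureTheory Set Finset

namespace Vale.Agent.P036

noncomputable section

/-- the strip counting field with its local mean removed -/
def Fsum (w W : ℝ) (S : Finset (ℕ × ℕ)) (x y : ℕ × ℕ → ℝ) (s t : ℝ) : ℝ :=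
  ∑ c ∈ S, phi w W (y c - x c * s - t)

lemma Fsum_sq (w W : ℝ) (S : Finset (ℕ × ℕ)) (x y : ℕ × ℕ → ℝ) (s t : ℝ) :
    (Fsum w W S x y s t) ^ 2 =
      ∑ c ∈ S, ∑ c' ∈ S, phi w W (y c - x c * s - t) * phi w W (y c' - x c' * s - t) := by
  unfold Fsum
  rw [sq, Finset.sum_mul_sum]

lemma integrable_Fsum_sq (w W : ℝ) (S : Finset (ℕ × ℕ)) (x y : ℕ × ℕ → ℝ) (s : ℝ) :
    Integrable (fun t => (Fsum w W S x y s t) ^ 2) := by
  simp_rw [Fsum_sq]
  refine integrable_finsetSum _ (fun c _ => integrable_finsetSum _ (fun c' _ => ?_))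
  exact integrable_phi_mul w W _ _

lemma integral_Fsum_sq (w W : ℝ) (S : Finset (ℕ × ℕ)) (x y : ℕ × ℕ → ℝ) (s : ℝ)
    (hw : 0 ≤ w) (hW : 0 ≤ W) :
    ∫ t, (Fsum w W S x y s t) ^ 2 =
      ∑ c ∈ S, ∑ c' ∈ S, Phi w W ((y c - y c') - (x c - x c') * s) := by
  simp_rw [Fsum_sq]
  rw [integral_finsetSum]
  · refine Finset.sum_congr rfl (fun c _ => ?_)
    rw [integral_finsetSum]
    · refine Finset.sum_congr rfl (fun c' _ => ?_)
      rw [integral_phi_mul w W _ _ hw hW]
      congr 1
      ring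
    · intro c' _
      exact integrable_phi_mul w W _ _
  · intro c _
    exact integrable_finsetSum _ (fun c' _ => integrable_phi_mul w W _ _)

lemma continuous_inner (w W : ℝ) (S : Finset (ℕ × ℕ)) (x y : ℕ × ℕ → ℝ)
    (hw : 0 ≤ w) (hW : 0 ≤ W) : Continuous (fun s => ∫ t, (Fsum w W S x y s t) ^ 2) := by
  simp_rw [integral_Fsum_sq w W S x y _ hw hW]
  have := continuous_Phi w W
  fun_prop

lemma second_moment (w W : ℝ) (S : Finset (ℕ × ℕ)) (x y : ℕ × ℕ → ℝ)
    (hw : 0 ≤ w) (hW : 0 ≤ W) :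
    ∫ s in (-1 : ℝ)..2, ∫ t, (Fsum w W S x y s t) ^ 2 =
      ∑ c ∈ S, ∑ c' ∈ S, Jint w W (x c - x c') (y c - y c') := by
  simp_rw [integral_Fsum_sq w W S x y _ hw hW]
  have hc := continuous_Phi w W
  rw [intervalIntegral.integral_finsetSum]
  · refine Finset.sum_congr rfl (fun c _ => ?_)
    rw [intervalIntegral.integral_finsetSum]
    · rfl
    · intro c' _
      apply Continuous.intervalIntegrable
      fun_prop
  · intro c _
    apply Continuous.intervalIntegrable
    fun_prop

lemma card_near (a : ℝ) (R : ℕ) (T : Finset ℕ) (hT : ∀ j ∈ T, |a - j| < R) :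
    T.card ≤ 2 * R + 1 := by
  have hsub : T ⊆ Finset.Icc ⌈a - R⌉₊ ⌊a + R⌋₊ := by
    intro j hj
    have h := abs_lt.mp (hT j hj)
    rw [Finset.mem_Icc]
    constructor
    · rw [Nat.ceil_le]; linarith [h.2]
    · apply Nat.le_floor; linarith [h.1]
  have h1 := Finset.card_le_card hsub
  rw [Nat.card_Icc] at h1
  have h2 : ⌊a + R⌋₊ + 1 - ⌈a - R⌉₊ ≤ 2 * R + 1 := by
    rcases le_total 0 (a + R) with h | h
    · have h3 := Nat.floor_le h
      have h4 := Nat.le_ceil (a - R)
      have h5 : (⌊a + R⌋₊ : ℝ) ≤ ⌈a - R⌉₊ + 2 * R := by linarith only [h3, h4]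
      have h6 : ⌊a + R⌋₊ ≤ ⌈a - R⌉₊ + 2 * R := by exact_mod_cast h5
      omega
    · have h3 : ⌊a + R⌋₊ = 0 := Nat.floor_of_nonpos h
      omega
  omega

/-- hypothesis: the point with index `c = (i, j)` lies in the unit cell `[i,i+1) × [j,j+1)` -/
def InCells (x y : ℕ × ℕ → ℝ) : Prop :=
  ∀ c : ℕ × ℕ, (c.1 : ℝ) ≤ x c ∧ x c < c.1 + 1 ∧ (c.2 : ℝ) ≤ y c ∧ y c < c.2 + 1

/-- distance of columns -/
def cd (i i' : ℕ) : ℕ := (i - i') + (i' - i)

lemma cd_cast (i i' : ℕ) : (cd i i' : ℝ) = |(i : ℝ) - i'| := by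
  unfold cd
  rcases le_total i i' with h | h
  · have h1 : i - i' = 0 := Nat.sub_eq_zero_of_le h
    rw [h1, zero_add, Nat.cast_sub h, abs_sub_comm, abs_of_nonneg]
    have : (i : ℝ) ≤ i' := by exact_mod_cast h
    linarith only [this]
  · have h1 : i' - i = 0 := Nat.sub_eq_zero_of_le h
    rw [h1, add_zero, Nat.cast_sub h, abs_of_nonneg]
    have : (i' : ℝ) ≤ i := by exact_mod_cast h
    linarith only [this]

lemma column_bound (w : ℝ) (m : ℕ) (x y : ℕ × ℕ → ℝ) (hxy : InCells x y)
    (hw : 0 ≤ w) (hw3 : w ≤ 3) (c : ℕ × ℕ) (i' : ℕ) :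
    ∑ j' ∈ range m, |Jint w 3 (x c - x (i', j')) (y c - y (i', j'))| ≤
      (if cd c.1 i' ≤ 1 then 276 * w else 0) + 1728 * w ^ 2 * (1 / ((cd c.1 i' : ℝ) + 1)) := by
  have hc := hxy c
  by_cases hk : cd c.1 i' ≤ 1
  · rw [if_pos hk]
    have h0 : 0 ≤ 1728 * w ^ 2 * (1 / ((cd c.1 i' : ℝ) + 1)) := by (clear * -; positivity)
    have hk' : |(c.1 : ℝ) - i'| ≤ 1 := by
      rw [← cd_cast]; exact_mod_cast hk
    have hk'' := abs_le.mp hk'
    -- the support
    have h1 : ∀ j' ∈ range m, |Jint w 3 (x c - x (i', j')) (y c - y (i', j'))| ≤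
        if |(c.2 : ℝ) - j'| < (11 : ℕ) then 12 * w else 0 := by
      intro j' _
      have hc' := hxy (i', j')
      simp only at hc'
      split_ifs with hj
      · exact abs_Jint_le w 3 _ _ hw (by norm_num) hw3
      · rw [Jint_eq_zero_near w 3 _ _ hw hw3]
        · simp
        · push_cast at hj
          rw [not_lt] at hj
          have hu : |x c - x (i', j')| ≤ 2 := by
            rw [abs_le]; constructor <;> linarith only [hc, hk'', hc']
          have hv : |(c.2 : ℝ) - j'| - 1 ≤ |y c - y (i', j')| := by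
            have h5 : |(c.2 : ℝ) - j'| ≤ |y c - y (i', j')| + |(c.2 - j') - (y c - y (i', j'))| := by
              have := abs_add_le (y c - y (i', j')) ((c.2 - j' : ℝ) - (y c - y (i', j')))
              simpa only [ge_iff_le, add_sub_cancel] using this
            have h6 : |((c.2 : ℝ) - j') - (y c - y (i', j'))| ≤ 1 := by
              rw [abs_le]; constructor <;> linarith only [hc, hc']
            linarith only [h5, h6]
          linarith only [hj, hu, hv]
    calc ∑ j' ∈ range m, |Jint w 3 (x c - x (i', j')) (y c - y (i', j'))|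
        ≤ ∑ j' ∈ range m, (if |(c.2 : ℝ) - j'| < (11 : ℕ) then 12 * w else 0) :=
          Finset.sum_le_sum h1
      _ = ((range m).filter (fun j' : ℕ => |(c.2 : ℝ) - j'| < (11 : ℕ))).card * (12 * w) := by
          rw [← Finset.sum_filter, Finset.sum_const, nsmul_eq_mul]
      _ ≤ (23 : ℕ) * (12 * w) := by
          have := card_near (c.2 : ℝ) 11
            ((range m).filter (fun j' : ℕ => |(c.2 : ℝ) - j'| < (11 : ℕ)))
            (fun j hj => (Finset.mem_filter.mp hj).2)
          (clear * - this hw; gcongr)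
      _ ≤ 276 * w + 1728 * w ^ 2 * (1 / ((cd c.1 i' : ℝ) + 1)) := by
          push_cast; linarith only [h0]
  · rw [if_neg hk, zero_add]
    rw [not_le] at hk
    have hk2 : (2 : ℝ) ≤ cd c.1 i' := by exact_mod_cast hk
    have hcast := cd_cast c.1 i'
    set k : ℝ := (cd c.1 i' : ℝ) with hkdef
    have h1 : ∀ j' ∈ range m, |Jint w 3 (x c - x (i', j')) (y c - y (i', j'))| ≤
        (if |((c.2 : ℝ) + c.1 - i') - j'| < (8 : ℕ) then 16 * w ^ 2 / (k - 1) else 0) +
        (if |((c.2 : ℝ) - 2 * (c.1 - i')) - j'| < (9 : ℕ) then 16 * w ^ 2 / (k - 1) else 0) := by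
      intro j' _
      have hc' := hxy (i', j')
      simp only at hc'
      have hulow : k - 1 ≤ |x c - x (i', j')| := by
        have h5 : |(c.1 : ℝ) - i'| ≤ |x c - x (i', j')| + |((c.1 : ℝ) - i') - (x c - x (i', j'))| := by
          have := abs_add_le (x c - x (i', j')) (((c.1 : ℝ) - i') - (x c - x (i', j')))
          simpa only [ge_iff_le, add_sub_cancel] using this
        have h6 : |((c.1 : ℝ) - i') - (x c - x (i', j'))| ≤ 1 := by
          rw [abs_le]; constructor <;> linarith only [hc, hc']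
        linarith only [hcast, h5, h6]
      have hu0 : x c - x (i', j') ≠ 0 := by
        intro h
        rw [h, abs_zero] at hulow
        linarith only [hk2, hulow]
      have hbd : |Jint w 3 (x c - x (i', j')) (y c - y (i', j'))| ≤ 16 * w ^ 2 / (k - 1) := by
        refine (abs_Jint_le_far w 3 _ _ hu0 hw (by norm_num)).trans ?_
        have : 0 < k - 1 := by linarith only [hk2]
        (clear * - this hulow; gcongr)
      have hnn : 0 ≤ 16 * w ^ 2 / (k - 1) := by
        have : 0 < k - 1 := by linarith only [hk2]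
        (clear * - this; positivity)
      by_cases hA : |((c.2 : ℝ) + c.1 - i') - j'| < (8 : ℕ)
      · rw [if_pos hA]
        split_ifs <;> linarith only [hbd, hnn]
      · by_cases hB : |((c.2 : ℝ) - 2 * (c.1 - i')) - j'| < (9 : ℕ)
        · rw [if_neg hA, if_pos hB]; linarith only [hbd]
        · rw [if_neg hA, if_neg hB]
          rw [Jint_eq_zero_far w 3 _ _ hu0 hw (by norm_num) hw3]
          · simp
          · push_cast at hA
            rw [not_lt] at hA
            have h5 : |((c.2 : ℝ) + c.1 - i') - j'| ≤ |y c - y (i', j') + (x c - x (i', j'))| +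
                |(((c.2 : ℝ) + c.1 - i') - j') - (y c - y (i', j') + (x c - x (i', j')))| := by
              have := abs_add_le (y c - y (i', j') + (x c - x (i', j')))
                ((((c.2 : ℝ) + c.1 - i') - j') - (y c - y (i', j') + (x c - x (i', j'))))
              simpa only [ge_iff_le, add_sub_cancel] using this
            have h6 : |(((c.2 : ℝ) + c.1 - i') - j') - (y c - y (i', j') + (x c - x (i', j')))| ≤ 2 := by
              rw [abs_le]
              constructor <;> linarith only [hc, hc']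
            linarith only [hA, h5, h6]
          · push_cast at hB
            rw [not_lt] at hB
            have h5 : |((c.2 : ℝ) - 2 * (c.1 - i')) - j'| ≤
                |y c - y (i', j') - 2 * (x c - x (i', j'))| +
                |(((c.2 : ℝ) - 2 * (c.1 - i')) - j') - (y c - y (i', j') - 2 * (x c - x (i', j')))| := by
              have := abs_add_le (y c - y (i', j') - 2 * (x c - x (i', j')))
                ((((c.2 : ℝ) - 2 * (c.1 - i')) - j') - (y c - y (i', j') - 2 * (x c - x (i', j'))))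
              simpa only [ge_iff_le, add_sub_cancel] using this
            have h6 : |(((c.2 : ℝ) - 2 * (c.1 - i')) - j') -
                (y c - y (i', j') - 2 * (x c - x (i', j')))| ≤ 3 := by
              rw [abs_le]
              constructor <;> linarith only [hc, hc']
            linarith only [hB, h5, h6]
    have hnn : 0 ≤ 16 * w ^ 2 / (k - 1) := by
      have : 0 < k - 1 := by linarith only [hk2]
      (clear * - this; positivity)
    calc ∑ j' ∈ range m, |Jint w 3 (x c - x (i', j')) (y c - y (i', j'))|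
        ≤ ∑ j' ∈ range m, ((if |((c.2 : ℝ) + c.1 - i') - j'| < (8 : ℕ) then 16 * w ^ 2 / (k - 1) else 0) +
        (if |((c.2 : ℝ) - 2 * (c.1 - i')) - j'| < (9 : ℕ) then 16 * w ^ 2 / (k - 1) else 0)) :=
          Finset.sum_le_sum h1
      _ = ((range m).filter (fun j' : ℕ => |((c.2 : ℝ) + c.1 - i') - j'| < (8 : ℕ))).card *
            (16 * w ^ 2 / (k - 1)) +
          ((range m).filter (fun j' : ℕ => |((c.2 : ℝ) - 2 * (c.1 - i')) - j'| < (9 : ℕ))).card *
            (16 * w ^ 2 / (k - 1)) := by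
          rw [Finset.sum_add_distrib, ← Finset.sum_filter, ← Finset.sum_filter, Finset.sum_const,
            Finset.sum_const, nsmul_eq_mul, nsmul_eq_mul]
      _ ≤ (17 : ℕ) * (16 * w ^ 2 / (k - 1)) + (19 : ℕ) * (16 * w ^ 2 / (k - 1)) := by
          have h8 := card_near ((c.2 : ℝ) + c.1 - i') 8
            ((range m).filter (fun j' : ℕ => |((c.2 : ℝ) + c.1 - i') - j'| < (8 : ℕ)))
            (fun j hj => (Finset.mem_filter.mp hj).2)
          have h9 := card_near ((c.2 : ℝ) - 2 * (c.1 - i')) 9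
            ((range m).filter (fun j' : ℕ => |((c.2 : ℝ) - 2 * (c.1 - i')) - j'| < (9 : ℕ)))
            (fun j hj => (Finset.mem_filter.mp hj).2)
          (clear * - h8 hnn h9; gcongr)
      _ = 576 * w ^ 2 * (1 / (k - 1)) := by push_cast; ring
      _ ≤ 576 * w ^ 2 * (3 * (1 / (k + 1))) := by
          have h10 : 1 / (k - 1) ≤ 3 * (1 / (k + 1)) := by
            rw [mul_one_div, div_le_div_iff₀ (by linarith only [hk2]) (by linarith only [hk2])]
            linarith only [hk2]
          (clear * - h10; gcongr)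
      _ = 1728 * w ^ 2 * (1 / (k + 1)) := by ring

lemma sum_cd_le (m i : ℕ) (g : ℕ → ℝ) (hg : ∀ k, 0 ≤ g k) (hi : i < m) :
    ∑ i' ∈ range m, g (cd i i') ≤ 2 * ∑ k ∈ range m, g k := by
  have hsplit : ∑ i' ∈ range m, g (cd i i') =
      ∑ i' ∈ (range m).filter (fun i' => i' ≤ i), g (cd i i') +
      ∑ i' ∈ (range m).filter (fun i' => ¬ i' ≤ i), g (cd i i') :=
    (Finset.sum_filter_add_sum_filter_not _ _ _).symm
  have h1 : ∑ i' ∈ (range m).filter (fun i' => i' ≤ i), g (cd i i') ≤ ∑ k ∈ range m, g k := by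
    have : ∑ i' ∈ (range m).filter (fun i' => i' ≤ i), g (cd i i') =
        ∑ k ∈ ((range m).filter (fun i' => i' ≤ i)).image (fun i' => i - i'), g k := by
      rw [Finset.sum_image]
      · refine Finset.sum_congr rfl (fun i' hi' => ?_)
        have := (Finset.mem_filter.mp hi').2
        unfold cd
        rw [Nat.sub_eq_zero_of_le this, add_zero]
      · intro a ha b hb hab
        have h1 := (Finset.mem_filter.mp ha).2
        have h2 := (Finset.mem_filter.mp hb).2
        simp only at hab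
        omega
    rw [this]
    apply Finset.sum_le_sum_of_subset_of_nonneg
    · intro k hk
      obtain ⟨i', hi', rfl⟩ := Finset.mem_image.mp hk
      rw [Finset.mem_range]
      omega
    · intro k _ _
      exact hg k
  have h2 : ∑ i' ∈ (range m).filter (fun i' => ¬ i' ≤ i), g (cd i i') ≤ ∑ k ∈ range m, g k := by
    have : ∑ i' ∈ (range m).filter (fun i' => ¬ i' ≤ i), g (cd i i') =
        ∑ k ∈ ((range m).filter (fun i' => ¬ i' ≤ i)).image (fun i' => i' - i), g k := by
      rw [Finset.sum_image]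
      · refine Finset.sum_congr rfl (fun i' hi' => ?_)
        have := (Finset.mem_filter.mp hi').2
        unfold cd
        rw [Nat.sub_eq_zero_of_le (by omega : i ≤ i'), zero_add]
      · intro a ha b hb hab
        have h1 := (Finset.mem_filter.mp ha).2
        have h2 := (Finset.mem_filter.mp hb).2
        simp only at hab
        omega
    rw [this]
    apply Finset.sum_le_sum_of_subset_of_nonneg
    · intro k hk
      obtain ⟨i', hi', rfl⟩ := Finset.mem_image.mp hk
      have := Finset.mem_range.mp (Finset.mem_filter.mp hi').1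
      rw [Finset.mem_range]
      omega
    · intro k _ _
      exact hg k
  linarith only [hsplit, h1, h2]

lemma sum_if_le_one (m : ℕ) (a : ℝ) (ha : 0 ≤ a) :
    ∑ k ∈ range m, (if k ≤ 1 then a else 0) ≤ 2 * a := by
  rw [← Finset.sum_filter, Finset.sum_const, nsmul_eq_mul]
  have : ((range m).filter (fun k => k ≤ 1)).card ≤ 2 := by
    have hsub : (range m).filter (fun k => k ≤ 1) ⊆ Finset.range 2 := by
      intro k hk
      have := (Finset.mem_filter.mp hk).2
      rw [Finset.mem_range]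
      omega
    simpa only [ge_iff_le, card_range] using Finset.card_le_card hsub
  have h2 : (((range m).filter (fun k => k ≤ 1)).card : ℝ) ≤ 2 := by exact_mod_cast this
  gcongr

lemma sum_inv_le (m : ℕ) : ∑ k ∈ range m, (1 / ((k : ℝ) + 1)) ≤ 1 + Real.log m := by
  have h := harmonic_le_one_add_log m
  have e : (harmonic m : ℝ) = ∑ k ∈ range m, (1 / ((k : ℝ) + 1)) := by
    unfold harmonic
    push_cast
    refine Finset.sum_congr rfl (fun k _ => ?_)
    rw [one_div]
  rw [← e]
  exact h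

/-- the upper bound for the second moment -/
lemma second_moment_le (w : ℝ) (m : ℕ) (x y : ℕ × ℕ → ℝ) (hxy : InCells x y)
    (hw : 0 ≤ w) (hw3 : w ≤ 3) :
    ∫ s in (-1 : ℝ)..2, ∫ t, (Fsum w 3 (Finset.range m ×ˢ Finset.range m) x y s t) ^ 2 ≤
      m ^ 2 * (1104 * w + 3456 * w ^ 2 * (1 + Real.log m)) := by
  rw [second_moment w 3 _ x y hw (by norm_num)]
  have hrow : ∀ c ∈ range m ×ˢ range m,
      ∑ c' ∈ range m ×ˢ range m, Jint w 3 (x c - x c') (y c - y c') ≤
        1104 * w + 3456 * w ^ 2 * (1 + Real.log m) := by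
    intro c hc
    have hi : c.1 < m := Finset.mem_range.mp (Finset.mem_product.mp hc).1
    calc ∑ c' ∈ range m ×ˢ range m, Jint w 3 (x c - x c') (y c - y c')
        ≤ ∑ c' ∈ range m ×ˢ range m, |Jint w 3 (x c - x c') (y c - y c')| :=
          Finset.sum_le_sum (fun c' _ => le_abs_self _)
      _ = ∑ i' ∈ range m, ∑ j' ∈ range m, |Jint w 3 (x c - x (i', j')) (y c - y (i', j'))| := by
          rw [Finset.sum_product]
      _ ≤ ∑ i' ∈ range m, ((if cd c.1 i' ≤ 1 then 276 * w else 0) +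
            1728 * w ^ 2 * (1 / ((cd c.1 i' : ℝ) + 1))) :=
          Finset.sum_le_sum (fun i' _ => column_bound w m x y hxy hw hw3 c i')
      _ ≤ 2 * ∑ k ∈ range m, ((if k ≤ 1 then 276 * w else 0) +
            1728 * w ^ 2 * (1 / ((k : ℝ) + 1))) := by
          apply sum_cd_le m c.1 (fun k => (if k ≤ 1 then 276 * w else 0) +
            1728 * w ^ 2 * (1 / ((k : ℝ) + 1))) _ hi
          intro k
          have : 0 ≤ (if k ≤ 1 then 276 * w else 0) := by
            split_ifs <;> positivity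
          (clear * - hw; positivity)
      _ ≤ 2 * (2 * (276 * w) + 1728 * w ^ 2 * (1 + Real.log m)) := by
          rw [Finset.sum_add_distrib, ← Finset.mul_sum]
          have h1 := sum_if_le_one m (276 * w) (by positivity)
          have h2 := sum_inv_le m
          (clear * - h1 h2; gcongr)
      _ = 1104 * w + 3456 * w ^ 2 * (1 + Real.log m) := by ring
  calc ∑ c ∈ range m ×ˢ range m, ∑ c' ∈ range m ×ˢ range m, Jint w 3 (x c - x c') (y c - y c')
      ≤ ∑ c ∈ range m ×ˢ range m, (1104 * w + 3456 * w ^ 2 * (1 + Real.log m)) :=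
        Finset.sum_le_sum hrow
    _ = m ^ 2 * (1104 * w + 3456 * w ^ 2 * (1 + Real.log m)) := by
        rw [Finset.sum_const, Finset.card_product, Finset.card_range, nsmul_eq_mul]
        push_cast
        ring

end

end Vale.Agent.P036
end
end

section

section

open MeasureTheory

namespace Vale.Agent.P036

noncomputable section

/-- twice the signed area of the triangle with vertex indices `a b c` -/
def dt (x y : ℕ × ℕ → ℝ) (a b c : ℕ × ℕ) : ℝ :=
  (x b - x a) * (y c - y a) - (y b - y a) * (x c - x a)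

/-- first point of the pair with index `d` -/
def pA (d : ℕ × ℕ) : ℕ × ℕ := (d.1, d.2 + 2)

/-- second point of the pair with index `d` -/
def pB (d : ℕ × ℕ) : ℕ × ℕ := (d.1 + 3, d.2 + 3)

/-- slope of the line through the pair -/
def sl (x y : ℕ × ℕ → ℝ) (d : ℕ × ℕ) : ℝ := (y (pB d) - y (pA d)) / (x (pB d) - x (pA d))

/-- intercept of the line through the pair -/
def ic (x y : ℕ × ℕ → ℝ) (d : ℕ × ℕ) : ℝ := y (pA d) - sl x y d * x (pA d)

lemma pair_facts (x y : ℕ × ℕ → ℝ) (hxy : InCells x y) (d : ℕ × ℕ) :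
    2 < x (pB d) - x (pA d) ∧ x (pB d) - x (pA d) < 4 ∧ 0 < y (pB d) - y (pA d) ∧
      y (pB d) - y (pA d) < 2 := by
  have hA := hxy (pA d)
  have hB := hxy (pB d)
  simp only [pA, pB] at hA hB ⊢
  push_cast at hA hB
  refine ⟨?_, ?_, ?_, ?_⟩ <;> linarith [hA.1, hA.2.1, hA.2.2.1, hA.2.2.2, hB.1, hB.2.1, hB.2.2.1, hB.2.2.2]

lemma sl_bounds (x y : ℕ × ℕ → ℝ) (hxy : InCells x y) (d : ℕ × ℕ) :
    0 < sl x y d ∧ sl x y d < 1 := by
  obtain ⟨h1, h2, h3, h4⟩ := pair_facts x y hxy d
  unfold sl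
  constructor
  · apply div_pos h3; linarith
  · rw [div_lt_one (by linarith)]; linarith

lemma line_B (x y : ℕ × ℕ → ℝ) (hxy : InCells x y) (d : ℕ × ℕ) :
    y (pB d) - sl x y d * x (pB d) - ic x y d = 0 := by
  obtain ⟨h1, h2, h3, h4⟩ := pair_facts x y hxy d
  unfold ic
  have : sl x y d * (x (pB d) - x (pA d)) = y (pB d) - y (pA d) := by
    unfold sl
    exact div_mul_cancel₀ _ (by linarith)
  linarith only [this]

lemma line_dt (x y : ℕ × ℕ → ℝ) (hxy : InCells x y) (d c : ℕ × ℕ) :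
    (x (pB d) - x (pA d)) * (y c - sl x y d * x c - ic x y d) = dt x y (pA d) (pB d) c := by
  obtain ⟨h1, h2, h3, h4⟩ := pair_facts x y hxy d
  unfold ic dt
  have : sl x y d * (x (pB d) - x (pA d)) = y (pB d) - y (pA d) := by
    unfold sl
    exact div_mul_cancel₀ _ (by linarith)
  rw [← this]
  ring

lemma far_of_dt (w : ℝ) (x y : ℕ × ℕ → ℝ) (hxy : InCells x y)
    (d c : ℕ × ℕ) (h : 8 * w < |dt x y (pA d) (pB d) c|) :
    2 * w < |y c - sl x y d * x c - ic x y d| := by
  obtain ⟨h1, h2, h3, h4⟩ := pair_facts x y hxy d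
  rw [← line_dt x y hxy d c, abs_mul, abs_of_pos (by linarith : 0 < x (pB d) - x (pA d))] at h
  by_contra hcon
  rw [not_lt] at hcon
  have : (x (pB d) - x (pA d)) * |y c - sl x y d * x c - ic x y d| ≤ 4 * (2 * w) := by
    apply mul_le_mul h2.le hcon (abs_nonneg _) (by norm_num)
  linarith

/-- membership of the parameter `(s,t)` in the box attached to the pair `d` -/
def inBox (w : ℝ) (m : ℕ) (x y : ℕ × ℕ → ℝ) (d : ℕ × ℕ) (s t : ℝ) : Prop :=
  |sl x y d - s| ≤ w / (2 * m) ∧ |ic x y d - t| ≤ w / 2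

lemma shift_bound (w : ℝ) (m : ℕ) (hm : 0 < m) (x y : ℕ × ℕ → ℝ) (hxy : InCells x y) (hw : 0 < w)
    (d c : ℕ × ℕ) (hc : c.1 < m) (s t : ℝ) (hb : inBox w m x y d s t) :
    |(y c - sl x y d * x c - ic x y d) - (y c - x c * s - t)| ≤ w := by
  have hmR : (0 : ℝ) < m := by exact_mod_cast hm
  have hx0 : 0 ≤ x c := le_trans (Nat.cast_nonneg _) (hxy c).1
  have hxm : x c ≤ m := by
    have h1 := (hxy c).2.1
    have h2 : (c.1 : ℝ) + 1 ≤ m := by exact_mod_cast hc
    linarith only [h1, h2]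
  have e : (y c - sl x y d * x c - ic x y d) - (y c - x c * s - t) =
      -((sl x y d - s) * x c + (ic x y d - t)) := by ring
  rw [e, abs_neg]
  have h1 : |(sl x y d - s) * x c| ≤ w / (2 * m) * m := by
    rw [abs_mul, abs_of_nonneg hx0]
    exact mul_le_mul hb.1 hxm hx0 (by positivity)
  have h2 : w / (2 * m) * m = w / 2 := by field_simp
  calc |(sl x y d - s) * x c + (ic x y d - t)|
      ≤ |(sl x y d - s) * x c| + |ic x y d - t| := abs_add_le _ _
    _ ≤ w / 2 + w / 2 := by
        have := hb.2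
        linarith only [h1, h2, this]
    _ = w := by ring

lemma mem_pair_of_near (w : ℝ) (m : ℕ) (hm : 0 < m) (x y : ℕ × ℕ → ℝ) (hxy : InCells x y)
    (hw : 0 < w)
    (hbad : ∀ a b c : ℕ × ℕ, a.1 < m → a.2 < m → b.1 < m → b.2 < m → c.1 < m → c.2 < m →
      a ≠ b → b ≠ c → a ≠ c → 8 * w < |dt x y a b c|)
    (d c : ℕ × ℕ) (hd : d.1 + 3 < m ∧ d.2 + 3 < m) (hc : c.1 < m ∧ c.2 < m) (s t : ℝ)
    (hb : inBox w m x y d s t) (hnear : |y c - x c * s - t| ≤ w) : c = pA d ∨ c = pB d := by
  by_contra hcon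
  rw [not_or] at hcon
  have hAB : pA d ≠ pB d := by
    intro h
    have := congrArg Prod.fst h
    simp only [pA, pB] at this
    omega
  have h1 : 8 * w < |dt x y (pA d) (pB d) c| := by
    apply hbad
    · simp only [pA]; omega
    · simp only [pA]; omega
    · simp only [pB]; omega
    · simp only [pB]; omega
    · exact hc.1
    · exact hc.2
    · exact hAB
    · exact fun h => hcon.2 h.symm
    · exact fun h => hcon.1 h.symm
  have h2 := far_of_dt w x y hxy d c h1
  have h3 := shift_bound w m hm x y hxy hw d c hc.1 s t hb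
  have h4 : |y c - sl x y d * x c - ic x y d| ≤
      |(y c - sl x y d * x c - ic x y d) - (y c - x c * s - t)| + |y c - x c * s - t| := by
    have := abs_add_le ((y c - sl x y d * x c - ic x y d) - (y c - x c * s - t)) (y c - x c * s - t)
    simpa only [ge_iff_le, sub_add_cancel] using this
  linarith only [hnear, h2, h3, h4]

lemma near_A (w : ℝ) (m : ℕ) (hm : 0 < m) (x y : ℕ × ℕ → ℝ) (hxy : InCells x y) (hw : 0 < w)
    (d : ℕ × ℕ) (hd : d.1 + 3 < m) (s t : ℝ) (hb : inBox w m x y d s t) :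
    |y (pA d) - x (pA d) * s - t| ≤ w := by
  have h := shift_bound w m hm x y hxy hw d (pA d) (by simp only [pA]; omega) s t hb
  have e : y (pA d) - sl x y d * x (pA d) - ic x y d = 0 := by unfold ic; ring
  rw [e, zero_sub, abs_neg] at h
  exact h

lemma near_B (w : ℝ) (m : ℕ) (hm : 0 < m) (x y : ℕ × ℕ → ℝ) (hxy : InCells x y) (hw : 0 < w)
    (d : ℕ × ℕ) (hd : d.1 + 3 < m) (s t : ℝ) (hb : inBox w m x y d s t) :
    |y (pB d) - x (pB d) * s - t| ≤ w := by
  have h := shift_bound w m hm x y hxy hw d (pB d) (by simp only [pB]; omega) s t hb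
  rw [line_B x y hxy d, zero_sub, abs_neg] at h
  exact h

lemma box_disjoint (w : ℝ) (m : ℕ) (hm : 0 < m) (x y : ℕ × ℕ → ℝ) (hxy : InCells x y)
    (hw : 0 < w)
    (hbad : ∀ a b c : ℕ × ℕ, a.1 < m → a.2 < m → b.1 < m → b.2 < m → c.1 < m → c.2 < m →
      a ≠ b → b ≠ c → a ≠ c → 8 * w < |dt x y a b c|)
    (d e : ℕ × ℕ) (hd : d.1 + 3 < m ∧ d.2 + 3 < m) (he : e.1 + 3 < m ∧ e.2 + 3 < m) (s t : ℝ)
    (hbd : inBox w m x y d s t) (hbe : inBox w m x y e s t) : d = e := by
  have h1 := mem_pair_of_near w m hm x y hxy hw hbad d (pA e) hd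
    (by simp only [pA]; omega) s t hbd (near_A w m hm x y hxy hw e he.1 s t hbe)
  have h2 := mem_pair_of_near w m hm x y hxy hw hbad d (pB e) hd
    (by simp only [pB]; omega) s t hbd (near_B w m hm x y hxy hw e he.1 s t hbe)
  simp only [pA, pB, Prod.ext_iff] at h1 h2 ⊢
  omega

lemma chi_le_one (h u : ℝ) : chi h u ≤ 1 := by
  unfold chi; split_ifs <;> norm_num

lemma chi_nonneg (h u : ℝ) : 0 ≤ chi h u := by
  unfold chi; split_ifs <;> norm_num

lemma sum_chi_le_two (w : ℝ) (m : ℕ) (hm : 0 < m) (x y : ℕ × ℕ → ℝ) (hxy : InCells x y)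
    (hw : 0 < w)
    (hbad : ∀ a b c : ℕ × ℕ, a.1 < m → a.2 < m → b.1 < m → b.2 < m → c.1 < m → c.2 < m →
      a ≠ b → b ≠ c → a ≠ c → 8 * w < |dt x y a b c|)
    (d : ℕ × ℕ) (hd : d.1 + 3 < m ∧ d.2 + 3 < m) (s t : ℝ) (hb : inBox w m x y d s t) :
    ∑ c ∈ Finset.range m ×ˢ Finset.range m, chi w (y c - x c * s - t) ≤ 2 := by
  have h1 : ∀ c ∈ Finset.range m ×ˢ Finset.range m,
      chi w (y c - x c * s - t) ≤ (if c = pA d then 1 else 0) + (if c = pB d then 1 else 0) := by
    intro c hc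
    have hc1 := Finset.mem_range.mp (Finset.mem_product.mp hc).1
    have hc2 := Finset.mem_range.mp (Finset.mem_product.mp hc).2
    by_cases hnear : |y c - x c * s - t| ≤ w
    · rcases mem_pair_of_near w m hm x y hxy hw hbad d c hd ⟨hc1, hc2⟩ s t hb hnear with h | h
      · rw [if_pos h]
        have := chi_le_one w (y c - x c * s - t)
        split_ifs <;> linarith only [this]
      · rw [if_pos h]
        have := chi_le_one w (y c - x c * s - t)
        split_ifs <;> linarith only [this]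
    · unfold chi
      rw [if_neg hnear]
      split_ifs <;> norm_num
  calc ∑ c ∈ Finset.range m ×ˢ Finset.range m, chi w (y c - x c * s - t)
      ≤ ∑ c ∈ Finset.range m ×ˢ Finset.range m,
          (((if c = pA d then 1 else 0) + (if c = pB d then 1 else 0)) : ℝ) :=
        Finset.sum_le_sum h1
    _ ≤ 2 := by
        rw [Finset.sum_add_distrib, Finset.sum_ite_eq', Finset.sum_ite_eq']
        split_ifs <;> norm_num

/-- the wide strip is rich -/
lemma sum_chi_wide (w : ℝ) (m q : ℕ) (hq : 4 * q ≤ m) (hq3 : 3 ≤ q) (x y : ℕ × ℕ → ℝ)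
    (hxy : InCells x y) (hw : 0 < w) (hw1 : w ≤ 1)
    (d : ℕ × ℕ) (hd : d.1 < q ∧ d.2 < q) (s t : ℝ) (hb : inBox w m x y d s t) :
    (2 * q : ℝ) ≤ ∑ c ∈ Finset.range m ×ˢ Finset.range m, chi 3 (y c - x c * s - t) := by
  have hm : 0 < m := by omega
  have hmR : (0 : ℝ) < m := by exact_mod_cast hm
  obtain ⟨hs0, hs1⟩ := sl_bounds x y hxy d
  have hs := abs_le.mp hb.1
  have ht := abs_le.mp hb.2
  have hwm : w / (2 * m) ≤ 1 / 2 := by
    rw [div_le_div_iff₀ (by positivity) (by norm_num)]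
    have : (1 : ℝ) ≤ m := by exact_mod_cast hm
    nlinarith only [hw1, this]
  have hA := hxy (pA d)
  simp only [pA] at hA
  push_cast at hA
  -- height of the perturbed line at column k
  have hheight : ∀ k : ℕ, d.1 ≤ k → k < d.1 + 2 * q → 0 ≤ s * k + t ∧ s * k + t < m := by
    intro k hk1 hk2
    have hk1' : (d.1 : ℝ) ≤ k := by exact_mod_cast hk1
    have hk2' : (k : ℝ) < d.1 + 2 * q := by exact_mod_cast hk2
    have hkm : (k : ℝ) ≤ m := by
      have : k ≤ m := by omega
      exact_mod_cast this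
    have hk0 : (0 : ℝ) ≤ k := Nat.cast_nonneg k
    have hdiff : |(sl x y d * k + ic x y d) - (s * k + t)| ≤ 1 := by
      have e : (sl x y d * k + ic x y d) - (s * k + t) = (sl x y d - s) * k + (ic x y d - t) := by ring
      rw [e]
      have h1 : |(sl x y d - s) * k| ≤ w / (2 * m) * m := by
        rw [abs_mul, abs_of_nonneg hk0]
        exact mul_le_mul hb.1 hkm hk0 (by positivity)
      have h2 : w / (2 * m) * m = w / 2 := by field_simp
      calc |(sl x y d - s) * k + (ic x y d - t)|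
          ≤ |(sl x y d - s) * k| + |ic x y d - t| := abs_add_le _ _
        _ ≤ w / 2 + w / 2 := by
            have := hb.2
            linarith only [h1, h2, this]
        _ ≤ 1 := by linarith only [hw1]
    have hd' := abs_le.mp hdiff
    have hline : sl x y d * k + ic x y d = y (d.1, d.2 + 2) + sl x y d * (k - x (d.1, d.2 + 2)) := by
      unfold ic
      simp only [pA]
      ring
    have hlow : -1 ≤ sl x y d * (k - x (d.1, d.2 + 2)) := by
      have : -1 ≤ k - x (d.1, d.2 + 2) := by linarith only [hA, hk1']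
      nlinarith only [hs1, hs0, hA, hk1']
    have hup : sl x y d * (k - x (d.1, d.2 + 2)) ≤ 2 * q := by
      have : k - x (d.1, d.2 + 2) ≤ 2 * q := by linarith only [hA, hk2']
      have hq0 : (0 : ℝ) ≤ 2 * q := by positivity
      nlinarith only [hs1, hs0, hA, hk2']
    have hd2 : (d.2 : ℝ) + 1 ≤ q := by exact_mod_cast hd.2
    have hq4 : (4 * q : ℝ) ≤ m := by exact_mod_cast hq
    have hq3' : (3 : ℝ) ≤ q := by exact_mod_cast hq3
    have hd20 : (0 : ℝ) ≤ d.2 := Nat.cast_nonneg _
    constructor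
    · linarith only [hA, hd', hline, hlow]
    · linarith only [hA, hd', hline, hup, hd2, hq4, hq3']
  -- the injection
  let T : Finset (ℕ × ℕ) := (Finset.range (2 * q)).image (fun k => (d.1 + k, ⌊s * ((d.1 + k : ℕ) : ℝ) + t⌋₊))
  have hTcard : T.card = 2 * q := by
    rw [Finset.card_image_of_injective, Finset.card_range]
    intro a b hab
    simp only [Prod.mk.injEq] at hab
    omega
  have hTsub : T ⊆ Finset.range m ×ˢ Finset.range m := by
    intro c hc
    obtain ⟨k, hk, rfl⟩ := Finset.mem_image.mp hc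
    rw [Finset.mem_range] at hk
    rw [Finset.mem_product, Finset.mem_range, Finset.mem_range]
    have hh := hheight (d.1 + k) (by omega) (by omega)
    refine ⟨?_, ?_⟩
    · show d.1 + k < m
      omega
    · exact (Nat.floor_lt hh.1).mpr hh.2
  have hTone : ∀ c ∈ T, chi 3 (y c - x c * s - t) = 1 := by
    intro c hc
    obtain ⟨k, hk, rfl⟩ := Finset.mem_image.mp hc
    rw [Finset.mem_range] at hk
    have hh := hheight (d.1 + k) (by omega) (by omega)
    have hfl := Nat.floor_le hh.1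
    have hfl2 := Nat.lt_floor_add_one (s * ((d.1 + k : ℕ) : ℝ) + t)
    have hcell := hxy (d.1 + k, ⌊s * ((d.1 + k : ℕ) : ℝ) + t⌋₊)
    simp only at hcell
    unfold chi
    rw [if_pos]
    set X := x (d.1 + k, ⌊s * ((d.1 + k : ℕ) : ℝ) + t⌋₊)
    set Y := y (d.1 + k, ⌊s * ((d.1 + k : ℕ) : ℝ) + t⌋₊)
    set h := s * ((d.1 + k : ℕ) : ℝ) + t with hh_def
    have e : Y - X * s - t = (Y - h) - (X - ((d.1 + k : ℕ) : ℝ)) * s := by rw [hh_def]; ring
    rw [e]
    have h1 : |Y - h| ≤ 1 := by
      rw [abs_le]; constructor <;> linarith only [hfl, hcell, hfl2]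
    have h2 : |X - ((d.1 + k : ℕ) : ℝ)| ≤ 1 := by
      rw [abs_le]; constructor <;> linarith only [hcell]
    have h3 : |s| ≤ 2 := by
      rw [abs_le]; constructor <;> linarith only [hs0, hs, hwm, hs1]
    have h4 : |(X - ((d.1 + k : ℕ) : ℝ)) * s| ≤ 1 * 2 := by
      rw [abs_mul]
      exact mul_le_mul h2 h3 (abs_nonneg _) (by norm_num)
    calc |(Y - h) - (X - ((d.1 + k : ℕ) : ℝ)) * s| ≤ |Y - h| + |(X - ((d.1 + k : ℕ) : ℝ)) * s| :=
          abs_sub _ _
      _ ≤ 3 := by linarith only [h1, h4]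
  calc (2 * q : ℝ) = ∑ c ∈ T, chi 3 (y c - x c * s - t) := by
        rw [Finset.sum_congr rfl hTone, Finset.sum_const, hTcard]
        simp
    _ ≤ ∑ c ∈ Finset.range m ×ˢ Finset.range m, chi 3 (y c - x c * s - t) := by
        apply Finset.sum_le_sum_of_subset_of_nonneg hTsub
        intro c _ _
        exact chi_nonneg _ _

end

end Vale.Agent.P036
end
end

section

section

open MeasureTheory

namespace Vale.Agent.P036

noncomputable section

lemma integrable_chi (h c : ℝ) : Integrable (fun t => chi h (c - t)) := by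
  have : (fun t => chi h (c - t)) = (Set.Icc (c - h) (c + h)).indicator (fun _ => (1 : ℝ)) := by
    funext t
    exact chi_eq_indicator h c t
  rw [this, integrable_indicator_iff measurableSet_Icc]
  exact integrableOn_const (by simp only [Real.volume_Icc, add_sub_sub_cancel, ne_eq, ENNReal.ofReal_ne_top, not_false_eq_true]) (by simp)

lemma integral_chi (h c : ℝ) (hh : 0 ≤ h) : ∫ t, chi h (c - t) = 2 * h := by
  have : (fun t => chi h (c - t)) = (Set.Icc (c - h) (c + h)).indicator (fun _ => (1 : ℝ)) := by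
    funext t
    exact chi_eq_indicator h c t
  rw [this, integral_indicator measurableSet_Icc]
  simp only [integral_const, smul_eq_mul, mul_one]
  rw [measureReal_restrict_apply MeasurableSet.univ, Set.univ_inter, Real.volume_real_Icc]
  rw [max_eq_left (by linarith)]
  ring

lemma integral_chi_interval (h c : ℝ) (hh : 0 ≤ h) (h1 : -1 < c - h) (h2 : c + h ≤ 2) :
    ∫ t in (-1 : ℝ)..2, chi h (c - t) = 2 * h := by
  rw [intervalIntegral.integral_of_le (by norm_num)]
  have : (fun t => chi h (c - t)) = (Set.Icc (c - h) (c + h)).indicator (fun _ => (1 : ℝ)) := by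
    funext t
    exact chi_eq_indicator h c t
  rw [this, setIntegral_indicator measurableSet_Icc]
  have hsub : Set.Ioc (-1 : ℝ) 2 ∩ Set.Icc (c - h) (c + h) = Set.Icc (c - h) (c + h) := by
    apply Set.inter_eq_right.mpr
    intro t ht
    exact ⟨lt_of_lt_of_le h1 ht.1, le_trans ht.2 h2⟩
  rw [hsub]
  simp only [integral_const, smul_eq_mul, mul_one]
  rw [measureReal_restrict_apply MeasurableSet.univ, Set.univ_inter, Real.volume_real_Icc]
  rw [max_eq_left (by linarith)]
  ring

lemma Fsum_le (w : ℝ) (m q : ℕ) (hq : 4 * q ≤ m) (hq3 : 3 ≤ q) (x y : ℕ × ℕ → ℝ)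
    (hxy : InCells x y) (hw : 0 < w) (hw1 : w ≤ 1) (hwq : 6 ≤ w * q)
    (hbad : ∀ a b c : ℕ × ℕ, a.1 < m → a.2 < m → b.1 < m → b.2 < m → c.1 < m → c.2 < m →
      a ≠ b → b ≠ c → a ≠ c → 8 * w < |dt x y a b c|)
    (d : ℕ × ℕ) (hd : d.1 < q ∧ d.2 < q) (s t : ℝ) (hb : inBox w m x y d s t) :
    Fsum w 3 (Finset.range m ×ˢ Finset.range m) x y s t ≤ -(w * q / 3) := by
  have h1 := sum_chi_le_two w m (by omega) x y hxy hw hbad d (by omega) s t hb
  have h2 := sum_chi_wide w m q hq hq3 x y hxy hw hw1 d hd s t hb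
  have e : Fsum w 3 (Finset.range m ×ˢ Finset.range m) x y s t =
      ∑ c ∈ Finset.range m ×ˢ Finset.range m, chi w (y c - x c * s - t) -
      (w / 3) * ∑ c ∈ Finset.range m ×ˢ Finset.range m, chi 3 (y c - x c * s - t) := by
    unfold Fsum phi
    rw [Finset.sum_sub_distrib, Finset.mul_sum]
  rw [e]
  have h3 : (w / 3) * (2 * q) ≤
      (w / 3) * ∑ c ∈ Finset.range m ×ˢ Finset.range m, chi 3 (y c - x c * s - t) := by
    (clear * - h2 hw; gcongr)
  linarith only [hwq, h1, h3]

lemma pointwise_lower (w : ℝ) (m q : ℕ) (hq : 4 * q ≤ m) (hq3 : 3 ≤ q) (x y : ℕ × ℕ → ℝ)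
    (hxy : InCells x y) (hw : 0 < w) (hw1 : w ≤ 1) (hwq : 6 ≤ w * q)
    (hbad : ∀ a b c : ℕ × ℕ, a.1 < m → a.2 < m → b.1 < m → b.2 < m → c.1 < m → c.2 < m →
      a ≠ b → b ≠ c → a ≠ c → 8 * w < |dt x y a b c|)
    (s t : ℝ) :
    (w * q / 3) ^ 2 * ∑ d ∈ Finset.range q ×ˢ Finset.range q,
        chi (w / (2 * m)) (sl x y d - s) * chi (w / 2) (ic x y d - t) ≤
      (Fsum w 3 (Finset.range m ×ˢ Finset.range m) x y s t) ^ 2 := by
  by_cases hex : ∃ d ∈ Finset.range q ×ˢ Finset.range q, inBox w m x y d s t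
  · obtain ⟨d, hd, hb⟩ := hex
    have hd1 := Finset.mem_range.mp (Finset.mem_product.mp hd).1
    have hd2 := Finset.mem_range.mp (Finset.mem_product.mp hd).2
    have hF := Fsum_le w m q hq hq3 x y hxy hw hw1 hwq hbad d ⟨hd1, hd2⟩ s t hb
    have hsum : ∑ e ∈ Finset.range q ×ˢ Finset.range q,
        chi (w / (2 * m)) (sl x y e - s) * chi (w / 2) (ic x y e - t) ≤ 1 := by
      have h1 : ∀ e ∈ Finset.range q ×ˢ Finset.range q,
          chi (w / (2 * m)) (sl x y e - s) * chi (w / 2) (ic x y e - t) ≤ if e = d then 1 else 0 := by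
        intro e he
        have he1 := Finset.mem_range.mp (Finset.mem_product.mp he).1
        have he2 := Finset.mem_range.mp (Finset.mem_product.mp he).2
        by_cases hbe : inBox w m x y e s t
        · have hde := box_disjoint w m (by omega) x y hxy hw hbad d e (by omega) (by omega) s t hb hbe
          rw [if_pos hde.symm]
          have a1 := chi_le_one (w / (2 * m)) (sl x y e - s)
          have a2 := chi_le_one (w / 2) (ic x y e - t)
          have a3 := chi_nonneg (w / 2) (ic x y e - t)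
          nlinarith only [a2, a1, a3]
        · have hz : chi (w / (2 * m)) (sl x y e - s) * chi (w / 2) (ic x y e - t) = 0 := by
            unfold inBox at hbe
            rw [not_and_or] at hbe
            rcases hbe with h | h
            · have : chi (w / (2 * m)) (sl x y e - s) = 0 := by unfold chi; rw [if_neg h]
              rw [this, zero_mul]
            · have : chi (w / 2) (ic x y e - t) = 0 := by unfold chi; rw [if_neg h]
              rw [this, mul_zero]
          rw [hz]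
          split_ifs <;> norm_num
      calc ∑ e ∈ Finset.range q ×ˢ Finset.range q,
          chi (w / (2 * m)) (sl x y e - s) * chi (w / 2) (ic x y e - t)
          ≤ ∑ e ∈ Finset.range q ×ˢ Finset.range q, (if e = d then (1 : ℝ) else 0) :=
            Finset.sum_le_sum h1
        _ ≤ 1 := by
            rw [Finset.sum_ite_eq']
            split_ifs <;> norm_num
    have hpos : 0 ≤ w * q / 3 := by positivity
    calc (w * q / 3) ^ 2 * ∑ e ∈ Finset.range q ×ˢ Finset.range q,
        chi (w / (2 * m)) (sl x y e - s) * chi (w / 2) (ic x y e - t)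
        ≤ (w * q / 3) ^ 2 * 1 := by (clear * - hsum hw hq3; gcongr)
      _ ≤ (Fsum w 3 (Finset.range m ×ˢ Finset.range m) x y s t) ^ 2 := by nlinarith only [hF, hwq]
  · have hz : ∑ d ∈ Finset.range q ×ˢ Finset.range q,
        chi (w / (2 * m)) (sl x y d - s) * chi (w / 2) (ic x y d - t) = 0 := by
      apply Finset.sum_eq_zero
      intro e he
      have hbe : ¬ inBox w m x y e s t := fun h => hex ⟨e, he, h⟩
      unfold inBox at hbe
      rw [not_and_or] at hbe
      rcases hbe with h | h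
      · have : chi (w / (2 * m)) (sl x y e - s) = 0 := by unfold chi; rw [if_neg h]
        rw [this, zero_mul]
      · have : chi (w / 2) (ic x y e - t) = 0 := by unfold chi; rw [if_neg h]
        rw [this, mul_zero]
    rw [hz, mul_zero]
    (clear * -; positivity)

lemma second_moment_ge (w : ℝ) (m q : ℕ) (hq : 4 * q ≤ m) (hq3 : 3 ≤ q) (x y : ℕ × ℕ → ℝ)
    (hxy : InCells x y) (hw : 0 < w) (hw1 : w ≤ 1) (hwq : 6 ≤ w * q)
    (hbad : ∀ a b c : ℕ × ℕ, a.1 < m → a.2 < m → b.1 < m → b.2 < m → c.1 < m → c.2 < m →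
      a ≠ b → b ≠ c → a ≠ c → 8 * w < |dt x y a b c|) :
    w ^ 4 * q ^ 4 / (9 * m) ≤
      ∫ s in (-1 : ℝ)..2, ∫ t, (Fsum w 3 (Finset.range m ×ˢ Finset.range m) x y s t) ^ 2 := by
  have hm : 0 < m := by omega
  have hmR : (0 : ℝ) < m := by exact_mod_cast hm
  have hinner : ∀ s : ℝ, (w * q / 3) ^ 2 * ∑ d ∈ Finset.range q ×ˢ Finset.range q,
        chi (w / (2 * m)) (sl x y d - s) * w ≤
      ∫ t, (Fsum w 3 (Finset.range m ×ˢ Finset.range m) x y s t) ^ 2 := by
    intro s
    have h1 : ∫ t, (w * q / 3) ^ 2 * ∑ d ∈ Finset.range q ×ˢ Finset.range q,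
        chi (w / (2 * m)) (sl x y d - s) * chi (w / 2) (ic x y d - t) =
        (w * q / 3) ^ 2 * ∑ d ∈ Finset.range q ×ˢ Finset.range q,
        chi (w / (2 * m)) (sl x y d - s) * w := by
      rw [integral_const_mul, integral_finsetSum]
      · congr 1
        refine Finset.sum_congr rfl (fun d _ => ?_)
        rw [integral_const_mul, integral_chi _ _ (by positivity)]
        ring
      · intro d _
        exact (integrable_chi _ _).const_mul _
    rw [← h1]
    apply integral_mono
    · apply Integrable.const_mul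
      apply integrable_finsetSum
      intro d _
      exact (integrable_chi _ _).const_mul _
    · exact integrable_Fsum_sq w 3 _ x y s
    · intro t
      exact pointwise_lower w m q hq hq3 x y hxy hw hw1 hwq hbad s t
  have houter : ∫ s in (-1 : ℝ)..2, (w * q / 3) ^ 2 * ∑ d ∈ Finset.range q ×ˢ Finset.range q,
        chi (w / (2 * m)) (sl x y d - s) * w = w ^ 4 * q ^ 4 / (9 * m) := by
    rw [intervalIntegral.integral_const_mul, intervalIntegral.integral_finsetSum]
    · have : ∀ d ∈ Finset.range q ×ˢ Finset.range q,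
          ∫ s in (-1 : ℝ)..2, chi (w / (2 * m)) (sl x y d - s) * w = w / m * w := by
        intro d _
        obtain ⟨hs0, hs1⟩ := sl_bounds x y hxy d
        have hwm : w / (2 * m) ≤ 1 / 2 := by
          rw [div_le_div_iff₀ (by positivity) (by norm_num)]
          have : (1 : ℝ) ≤ m := by exact_mod_cast hm
          nlinarith only [hw1, this]
        rw [intervalIntegral.integral_mul_const, integral_chi_interval _ _ (by positivity)
          (by linarith only [hs0, hwm]) (by linarith only [hs1, hwm])]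
        field_simp
      rw [Finset.sum_congr rfl this, Finset.sum_const, Finset.card_product, Finset.card_range,
        nsmul_eq_mul]
      push_cast
      field_simp
      try ring
    · intro d _
      exact ((integrable_chi _ _).intervalIntegrable).mul_const _
  rw [← houter]
  apply intervalIntegral.integral_mono_on (by norm_num)
  · apply IntervalIntegrable.const_mul
    have : (fun s => ∑ d ∈ Finset.range q ×ˢ Finset.range q, chi (w / (2 * m)) (sl x y d - s) * w) =
        ∑ d ∈ Finset.range q ×ˢ Finset.range q,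
          (fun s => chi (w / (2 * m)) (sl x y d - s) * w) := by
      funext s
      simp
    rw [this]
    apply IntervalIntegrable.sum
    intro d _
    exact ((integrable_chi _ _).intervalIntegrable).mul_const _
  · exact (continuous_inner w 3 _ x y hw.le (by norm_num)).intervalIntegrable _ _
  · intro s _
    exact hinner s

end

end Vale.Agent.P036
end
end

section

section

open MeasureTheory

namespace Vale.Agent.P036

noncomputable section

lemma log_le_of_ge {z K : ℝ} (hK : 0 < K) (hz : K ≤ z) :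
    Real.log z ≤ Real.log K + (z / K - 1) := by
  have hz0 : 0 < z := lt_of_lt_of_le hK hz
  have h1 : Real.log z = Real.log K + Real.log (z / K) := by
    rw [← Real.log_mul hK.ne' (by positivity)]
    congr 1
    field_simp
  have h2 := Real.log_le_sub_one_of_pos (show 0 < z / K by positivity)
  linarith

lemma log_1500 : Real.log 1500 ≤ 8 := by
  rw [Real.log_le_iff_le_exp (by norm_num)]
  have h := Real.exp_one_gt_d9
  have h2 : (2.7 : ℝ) ≤ Real.exp 1 := by linarith
  have h3 : Real.exp 8 = (Real.exp 1) ^ 8 := by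
    rw [← Real.exp_nat_mul]; norm_num
  rw [h3]
  calc (1500 : ℝ) ≤ 2.7 ^ 8 := by norm_num
    _ ≤ (Real.exp 1) ^ 8 := by gcongr

/-- Among one point from each unit cell of `[0,m)²` there are three with small determinant. -/
theorem cells_small (m : ℕ) (hm2 : 2 ≤ m) (x y : ℕ × ℕ → ℝ) (hxy : InCells x y) :
    ∃ a b c : ℕ × ℕ, (a.1 < m ∧ a.2 < m) ∧ (b.1 < m ∧ b.2 < m) ∧ (c.1 < m ∧ c.2 < m) ∧
      a ≠ b ∧ b ≠ c ∧ a ≠ c ∧ |dt x y a b c| ≤ 12000 * (m : ℝ) ^ (-(1 / 3) : ℝ) := by
  have hm0 : 0 < m := by omega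
  have hmR : (0 : ℝ) < m := by exact_mod_cast hm0
  set z : ℝ := (m : ℝ) ^ ((1 / 3 : ℝ)) with hz
  have hz0 : 0 < z := Real.rpow_pos_of_pos hmR _
  have hz3 : z ^ 3 = m := by
    rw [hz, ← Real.rpow_natCast, ← Real.rpow_mul hmR.le]
    norm_num
  have hzinv : (m : ℝ) ^ (-(1 / 3) : ℝ) = 1 / z := by
    rw [Real.rpow_neg hmR.le]
    exact inv_eq_one_div _
  rw [hzinv]
  by_cases hzK : z < 1500
  · refine ⟨(0, 0), (1, 0), (0, 1), ⟨hm0, hm0⟩, ⟨by show 1 < m; omega, hm0⟩,
      ⟨hm0, by show 1 < m; omega⟩, by simp, by simp, by simp, ?_⟩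
    have h00 := hxy (0, 0)
    have h10 := hxy (1, 0)
    have h01 := hxy (0, 1)
    simp only [Nat.cast_zero, Nat.cast_one] at h00 h10 h01
    have h8 : (8 : ℝ) ≤ 12000 * (1 / z) := by
      rw [mul_one_div, le_div_iff₀ hz0]
      linarith only [hzK]
    refine le_trans ?_ h8
    unfold dt
    obtain ⟨a1, a2, a3, a4⟩ := h00
    obtain ⟨b1, b2, b3, b4⟩ := h10
    obtain ⟨c1, c2, c3, c4⟩ := h01
    have e1 : |(x (1, 0) - x (0, 0)) * (y (0, 1) - y (0, 0))| ≤ 2 * 2 := by
      rw [abs_mul]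
      apply mul_le_mul _ _ (abs_nonneg _) (by norm_num)
      · rw [abs_le]; constructor <;> linarith only [a1, b2, a2, b1]
      · rw [abs_le]; constructor <;> linarith only [a3, c4, a4, c3]
    have e2 : |(y (1, 0) - y (0, 0)) * (x (0, 1) - x (0, 0))| ≤ 2 * 2 := by
      rw [abs_mul]
      apply mul_le_mul _ _ (abs_nonneg _) (by norm_num)
      · rw [abs_le]; constructor <;> linarith only [a3, b4, a4, b3]
      · rw [abs_le]; constructor <;> linarith only [a1, c2, a2, c1]
    calc _ ≤ |(x (1, 0) - x (0, 0)) * (y (0, 1) - y (0, 0))| +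
          |(y (1, 0) - y (0, 0)) * (x (0, 1) - x (0, 0))| := abs_sub _ _
      _ ≤ 8 := by linarith only [e1, e2]
  · rw [not_lt] at hzK
    by_contra hcon
    push Not at hcon
    set w : ℝ := 1500 / z with hwdef
    have hw : 0 < w := by positivity
    have hw1 : w ≤ 1 := by
      rw [hwdef, div_le_one hz0]; exact hzK
    have hbad : ∀ a b c : ℕ × ℕ, a.1 < m → a.2 < m → b.1 < m → b.2 < m → c.1 < m → c.2 < m →
      a ≠ b → b ≠ c → a ≠ c → 8 * w < |dt x y a b c| := by
      intro a b c ha1 ha2 hb1 hb2 hc1 hc2 hab hbc hac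
      have := hcon a b c ⟨ha1, ha2⟩ ⟨hb1, hb2⟩ ⟨hc1, hc2⟩ hab hbc hac
      have e : 8 * w = 12000 * (1 / z) := by rw [hwdef]; ring
      rw [e]; exact this
    have hmbig : (1500 : ℝ) ^ 3 ≤ m := by
      rw [← hz3]; (clear * - hzK; gcongr)
    have hmbig' : 1500 ^ 3 ≤ m := by exact_mod_cast hmbig
    set q : ℕ := m / 4 with hq
    have hq4 : 4 * q ≤ m := by omega
    have hq3 : 3 ≤ q := by omega
    have hqm : m ≤ 8 * q := by omega
    have hqR : (m : ℝ) / 8 ≤ q := by
      have : (m : ℝ) ≤ 8 * q := by exact_mod_cast hqm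
      linarith only [this]
    have hwq : 6 ≤ w * q := by
      have h1 : w * (m / 8) ≤ w * q := by (clear * - hqR hm2; gcongr)
      have h2 : w * (m / 8) = 1500 * z ^ 2 / 8 := by
        rw [hwdef, ← hz3]; (clear * - hz0; field_simp)
      nlinarith only [h1, h2, hzK]
    have hge := second_moment_ge w m q hq4 hq3 x y hxy hw hw1 hwq hbad
    have hle := second_moment_le w m x y hxy hw.le (by linarith only [hw1])
    have hmain : w ^ 4 * q ^ 4 / (9 * m) ≤ m ^ 2 * (1104 * w + 3456 * w ^ 2 * (1 + Real.log m)) :=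
      le_trans hge hle
    have hlow : w ^ 4 * (m / 8) ^ 4 / (9 * m) ≤ w ^ 4 * q ^ 4 / (9 * m) := by (clear * - hm2 hqR; gcongr)
    have hlog : Real.log m = 3 * Real.log z := by
      rw [← hz3, Real.log_pow]; norm_num
    have hlogz := log_le_of_ge (show (0 : ℝ) < 1500 by norm_num) hzK
    have h1500 := log_1500
    have hL : w * (1 + Real.log m) ≤ 25 := by
      rw [hlog, hwdef]
      rw [div_mul_eq_mul_div, div_le_iff₀ hz0]
      nlinarith only [hzK, hlogz, h1500]
    have hkey : w ^ 4 * (m / 8) ^ 4 / (9 * m) ≤ m ^ 2 * w * (1104 + 3456 * 25) := by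
      refine le_trans (le_trans hlow hmain) ?_
      have : m ^ 2 * (1104 * w + 3456 * w ^ 2 * (1 + Real.log m)) =
          m ^ 2 * w * (1104 + 3456 * (w * (1 + Real.log m))) := by ring
      rw [this]
      (clear * - hL hm2; gcongr)
    have e1 : w ^ 4 * (m / 8) ^ 4 / (9 * m) = (m ^ 2 * w) * (w ^ 3 * m) / 36864 := by
      field_simp
      norm_num
    have e2 : w ^ 3 * m = 1500 ^ 3 := by
      rw [hwdef, ← hz3]; field_simp
    rw [e1, e2] at hkey
    have hpos : 0 < m ^ 2 * w := by positivity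
    nlinarith only [hkey, hpos]

end

end Vale.Agent.P036
end
end

section

section

namespace Vale.Agent.P036

noncomputable section

lemma minArea_le (P : Finset (EuclideanSpace ℝ (Fin 2))) (p q r : EuclideanSpace ℝ (Fin 2))
    (hp : p ∈ P) (hq : q ∈ P) (hr : r ∈ P) (h1 : p ≠ q) (h2 : q ≠ r) (h3 : p ≠ r) :
    minArea P ≤ triArea p q r := by
  unfold minArea
  apply csInf_le
  · refine ⟨0, ?_⟩
    rintro A ⟨a, _, b, _, c, _, _, _, _, rfl⟩
    unfold triArea
    (clear * -; positivity)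
  · exact ⟨p, hp, q, hq, r, hr, h1, h2, h3, rfl⟩

/-- a point in every open cell of the `m × m` grid forces a small triangle -/
theorem grid_small (m : ℕ) (hm : 2 ≤ m) (P : Finset (EuclideanSpace ℝ (Fin 2)))
    (hP : ∀ i j : ℕ, i < m → j < m → ∃ p ∈ P, (i : ℝ) ≤ m * p 0 ∧ m * p 0 < i + 1 ∧
      (j : ℝ) ≤ m * p 1 ∧ m * p 1 < j + 1) :
    minArea P ≤ 6000 * (m : ℝ) ^ (-(7 / 3) : ℝ) := by
  have hmR : (0 : ℝ) < m := by
    have : 0 < m := by omega
    exact_mod_cast this
  have hP' : ∀ c : ℕ × ℕ, ∃ p : EuclideanSpace ℝ (Fin 2), c.1 < m → c.2 < m → p ∈ P ∧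
      ((c.1 : ℝ) ≤ m * p 0 ∧ m * p 0 < c.1 + 1 ∧ (c.2 : ℝ) ≤ m * p 1 ∧ m * p 1 < c.2 + 1) := by
    intro c
    by_cases h : c.1 < m ∧ c.2 < m
    · obtain ⟨p, hp, h'⟩ := hP c.1 c.2 h.1 h.2
      exact ⟨p, fun _ _ => ⟨hp, h'⟩⟩
    · exact ⟨0, fun h1 h2 => absurd ⟨h1, h2⟩ h⟩
  choose f hf using hP'
  let x : ℕ × ℕ → ℝ := fun c => if c.1 < m ∧ c.2 < m then m * (f c) 0 else c.1
  let y : ℕ × ℕ → ℝ := fun c => if c.1 < m ∧ c.2 < m then m * (f c) 1 else c.2
  have hxy : InCells x y := by
    intro c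
    by_cases h : c.1 < m ∧ c.2 < m
    · have := (hf c h.1 h.2).2
      simp only [x, y, if_pos h]
      exact this
    · simp only [x, y, if_neg h]
      refine ⟨le_refl _, by linarith only [], le_refl _, by linarith only []⟩
  obtain ⟨a, b, c, ha, hb, hc, hab, hbc, hac, hdt⟩ := cells_small m hm x y hxy
  have hne : ∀ a b : ℕ × ℕ, a.1 < m ∧ a.2 < m → b.1 < m ∧ b.2 < m → a ≠ b → f a ≠ f b := by
    intro a b ha hb hab h
    apply hab
    have h1 := (hf a ha.1 ha.2).2
    have h2 := (hf b hb.1 hb.2).2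
    rw [h] at h1
    have e1 : (a.1 : ℝ) < b.1 + 1 := by linarith only [h1, h2]
    have e2 : (b.1 : ℝ) < a.1 + 1 := by linarith only [h1, h2]
    have e3 : (a.2 : ℝ) < b.2 + 1 := by linarith only [h1, h2]
    have e4 : (b.2 : ℝ) < a.2 + 1 := by linarith only [h1, h2]
    have e1' : a.1 < b.1 + 1 := by exact_mod_cast e1
    have e2' : b.1 < a.1 + 1 := by exact_mod_cast e2
    have e3' : a.2 < b.2 + 1 := by exact_mod_cast e3
    have e4' : b.2 < a.2 + 1 := by exact_mod_cast e4
    ext <;> omega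
  refine le_trans (minArea_le P (f a) (f b) (f c) (hf a ha.1 ha.2).1 (hf b hb.1 hb.2).1
    (hf c hc.1 hc.2).1 (hne a b ha hb hab) (hne b c hb hc hbc) (hne a c ha hc hac)) ?_
  have e : triArea (f a) (f b) (f c) = |dt x y a b c| / (2 * m ^ 2) := by
    unfold triArea dt
    simp only [x, y, if_pos ha, if_pos hb, if_pos hc]
    have : (↑m * (f b) 0 - ↑m * (f a) 0) * (↑m * (f c) 1 - ↑m * (f a) 1) -
        (↑m * (f b) 1 - ↑m * (f a) 1) * (↑m * (f c) 0 - ↑m * (f a) 0) =
        (m : ℝ) ^ 2 * (((f b) 0 - (f a) 0) * ((f c) 1 - (f a) 1) -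
          ((f b) 1 - (f a) 1) * ((f c) 0 - (f a) 0)) := by ring
    rw [this, abs_mul, abs_of_pos (by positivity : (0 : ℝ) < (m : ℝ) ^ 2)]
    (clear * - hm; field_simp)
  rw [e]
  have e2 : (m : ℝ) ^ (-(7 / 3) : ℝ) = (m : ℝ) ^ (-(1 / 3) : ℝ) / m ^ 2 := by
    rw [show (-(7 / 3) : ℝ) = -(1 / 3) - (2 : ℕ) by norm_num, Real.rpow_sub_natCast hmR.ne']
  rw [e2, div_le_iff₀ (by positivity)]
  have e3 : 6000 * ((m : ℝ) ^ (-(1 / 3) : ℝ) / m ^ 2) * (2 * m ^ 2) =
      12000 * (m : ℝ) ^ (-(1 / 3) : ℝ) := by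
    field_simp
    norm_num
  rw [e3]
  exact hdt

lemma coord_le_dist (x p : EuclideanSpace ℝ (Fin 2)) (i : Fin 2) : |x i - p i| ≤ dist x p := by
  rw [EuclideanSpace.dist_eq]
  apply Real.le_sqrt_of_sq_le
  rw [Fin.sum_univ_two, Real.dist_eq, Real.dist_eq]
  fin_cases i
  · show |x 0 - p 0| ^ 2 ≤ _
    nlinarith only []
  · show |x 1 - p 1| ^ 2 ≤ _
    nlinarith only []

lemma triArea_le_one (p q r : EuclideanSpace ℝ (Fin 2)) (hp : ∀ i, 0 ≤ p i ∧ p i ≤ 1)
    (hq : ∀ i, 0 ≤ q i ∧ q i ≤ 1) (hr : ∀ i, 0 ≤ r i ∧ r i ≤ 1) : triArea p q r ≤ 1 := by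
  unfold triArea
  have b : ∀ (a c : EuclideanSpace ℝ (Fin 2)) (i : Fin 2), (∀ i, 0 ≤ a i ∧ a i ≤ 1) →
      (∀ i, 0 ≤ c i ∧ c i ≤ 1) → |a i - c i| ≤ 1 := by
    intro a c i ha hc
    rw [abs_le]
    constructor <;> linarith [(ha i).1, (ha i).2, (hc i).1, (hc i).2]
  have h1 : |(q 0 - p 0) * (r 1 - p 1)| ≤ 1 := by
    rw [abs_mul]
    exact mul_le_one₀ (b q p 0 hq hp) (abs_nonneg _) (b r p 1 hr hp)
  have h2 : |(q 1 - p 1) * (r 0 - p 0)| ≤ 1 := by
    rw [abs_mul]
    exact mul_le_one₀ (b q p 1 hq hp) (abs_nonneg _) (b r p 0 hr hp)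
  have h3 : |(q 0 - p 0) * (r 1 - p 1) - (q 1 - p 1) * (r 0 - p 0)| ≤
      |(q 0 - p 0) * (r 1 - p 1)| + |(q 1 - p 1) * (r 0 - p 0)| := abs_sub _ _
  linarith only [h1, h2, h3]

/-- small covering radius forces a small triangle -/
theorem covering_small (P : Finset (EuclideanSpace ℝ (Fin 2))) (hcard : 3 ≤ P.card)
    (hP : ∀ p ∈ P, ∀ i, 0 ≤ p i ∧ p i ≤ 1) (ρ : ℝ) (hρ : 0 < ρ)
    (hcov : ∀ x : EuclideanSpace ℝ (Fin 2), (∀ i, 0 ≤ x i ∧ x i ≤ 1) → ∃ p ∈ P, dist x p ≤ ρ) :
    minArea P ≤ 80000 * ρ ^ (7 / 3 : ℝ) := by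
  by_cases hρ4 : 1 / 4 ≤ ρ
  · obtain ⟨p, q, r, hp, hq, hr, h1, h2, h3⟩ := Finset.two_lt_card_iff.mp (show 2 < P.card by omega)
    refine le_trans (minArea_le P p q r hp hq hr h1 h3 h2) ?_
    refine le_trans (triArea_le_one p q r (hP p hp) (hP q hq) (hP r hr)) ?_
    have e1 : ((1 : ℝ) / 4) ^ (3 : ℝ) ≤ (1 / 4) ^ (7 / 3 : ℝ) :=
      Real.rpow_le_rpow_of_exponent_ge (by norm_num) (by norm_num) (by norm_num)
    have e2 : ((1 : ℝ) / 4) ^ (7 / 3 : ℝ) ≤ ρ ^ (7 / 3 : ℝ) :=
      Real.rpow_le_rpow (by norm_num) hρ4 (by norm_num)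
    have e3 : ((1 : ℝ) / 4) ^ (3 : ℝ) = 1 / 64 := by
      rw [show (3 : ℝ) = (3 : ℕ) by norm_num, Real.rpow_natCast]; norm_num
    linarith only [e1, e2]
  · rw [not_le] at hρ4
    set N : ℕ := ⌈1 / (2 * ρ)⌉₊ with hN
    have hinv : 2 < 1 / (2 * ρ) := by
      rw [lt_div_iff₀ (by positivity)]; linarith only [hρ4]
    have hN3 : 3 ≤ N := by
      have : 2 < N := by
        rw [hN, Nat.lt_ceil]; exact_mod_cast hinv
      omega
    set m : ℕ := N - 1 with hm
    have hm2 : 2 ≤ m := by omega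
    have hmN : m + 1 = N := by omega
    have hmR : (0 : ℝ) < m := by
      have : 0 < m := by omega
      exact_mod_cast this
    have hup : (m : ℝ) < 1 / (2 * ρ) := by
      have : m < N := by omega
      exact Nat.lt_ceil.mp this
    have hlow : 1 / (2 * ρ) ≤ m + 1 := by
      have := Nat.le_ceil (1 / (2 * ρ))
      rw [← hN, ← hmN] at this
      push_cast at this
      exact this
    have hρm : ρ < 1 / (2 * m) := by
      rw [lt_div_iff₀ (by positivity)]
      rw [lt_div_iff₀ (by positivity)] at hup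
      linarith only [hup]
    have hgrid : ∀ i j : ℕ, i < m → j < m → ∃ p ∈ P, (i : ℝ) ≤ m * p 0 ∧ m * p 0 < i + 1 ∧
      (j : ℝ) ≤ m * p 1 ∧ m * p 1 < j + 1 := by
      intro i j hi hj
      have hiR : (i : ℝ) + 1 ≤ m := by exact_mod_cast hi
      have hjR : (j : ℝ) + 1 ≤ m := by exact_mod_cast hj
      have hi0 : (0 : ℝ) ≤ i := Nat.cast_nonneg i
      have hj0 : (0 : ℝ) ≤ j := Nat.cast_nonneg j
      let c : EuclideanSpace ℝ (Fin 2) := !₂[((i : ℝ) + 1 / 2) / m, ((j : ℝ) + 1 / 2) / m]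
      have hc0 : c 0 = ((i : ℝ) + 1 / 2) / m := by simp only [Fin.isValue, one_div, Matrix.cons_val_zero, c]
      have hc1 : c 1 = ((j : ℝ) + 1 / 2) / m := by simp only [Fin.isValue, one_div, Matrix.cons_val_one, Matrix.cons_val_fin_one, c]
      obtain ⟨p, hp, hd⟩ := hcov c (by
        intro k
        fin_cases k
        · show 0 ≤ c 0 ∧ c 0 ≤ 1
          rw [hc0]
          refine ⟨by (clear * - hm2; positivity), ?_⟩
          rw [div_le_one hmR]; linarith only [hiR]
        · show 0 ≤ c 1 ∧ c 1 ≤ 1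
          rw [hc1]
          refine ⟨by (clear * - hm2; positivity), ?_⟩
          rw [div_le_one hmR]; linarith only [hjR])
      have h0 := lt_of_le_of_lt (le_trans (coord_le_dist c p 0) hd) hρm
      have h1 := lt_of_le_of_lt (le_trans (coord_le_dist c p 1) hd) hρm
      rw [hc0] at h0
      rw [hc1] at h1
      rw [lt_div_iff₀ (by positivity)] at h0 h1
      have g0 : |((i : ℝ) + 1 / 2) - m * p 0| < 1 / 2 := by
        have : ((i : ℝ) + 1 / 2) - m * p 0 = (((i : ℝ) + 1 / 2) / m - p 0) * m := by (clear * - hm2; field_simp)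
        rw [this, abs_mul, abs_of_pos hmR]; linarith only [h0]
      have g1 : |((j : ℝ) + 1 / 2) - m * p 1| < 1 / 2 := by
        have : ((j : ℝ) + 1 / 2) - m * p 1 = (((j : ℝ) + 1 / 2) / m - p 1) * m := by (clear * - hm2; field_simp)
        rw [this, abs_mul, abs_of_pos hmR]; linarith only [h1]
      rw [abs_lt] at g0 g1
      refine ⟨p, hp, ?_, ?_, ?_, ?_⟩ <;> linarith only [g0, g1]
    have hmain := grid_small m hm2 P hgrid
    have hm3 : 1 / (3 * ρ) ≤ m := by
      have hm2R : (2 : ℝ) ≤ m := by exact_mod_cast hm2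
      have : 1 / (2 * ρ) ≤ 3 / 2 * m := by linarith only [hlow, hm2R]
      rw [div_le_iff₀ (by positivity)] at this ⊢
      nlinarith only [this]
    have h3 : (m : ℝ) ^ (-(7 / 3) : ℝ) ≤ (3 * ρ) ^ (7 / 3 : ℝ) := by
      rw [Real.rpow_neg hmR.le, ← Real.inv_rpow hmR.le]
      apply Real.rpow_le_rpow (by positivity) _ (by norm_num)
      rw [inv_le_comm₀ hmR (by positivity), ← one_div]
      exact hm3
    have h4 : (3 * ρ) ^ (7 / 3 : ℝ) ≤ 13 * ρ ^ (7 / 3 : ℝ) := by
      rw [Real.mul_rpow (by norm_num) hρ.le]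
      have : (3 : ℝ) ^ (7 / 3 : ℝ) ≤ 13 := by
        have e : ((3 : ℝ) ^ (7 / 3 : ℝ)) ^ (3 : ℕ) ≤ 13 ^ (3 : ℕ) := by
          rw [← Real.rpow_natCast, ← Real.rpow_mul (by norm_num)]
          norm_num
        exact le_of_pow_le_pow_left₀ (by norm_num) (by norm_num) e
      (clear * - this hρ; gcongr)
    have h5 : 0 ≤ ρ ^ (7 / 3 : ℝ) := by positivity
    calc minArea P ≤ 6000 * (m : ℝ) ^ (-(7 / 3) : ℝ) := hmain
      _ ≤ 6000 * (13 * ρ ^ (7 / 3 : ℝ)) := by
          gcongr
          exact le_trans h3 h4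
      _ ≤ 80000 * ρ ^ (7 / 3 : ℝ) := by linarith only [h5]

end

end Vale.Agent.P036
end
end
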